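import Vale.Agent.P208.Gadget

/-!
Packing turns the orthogonal lifts into a definite amount of strip energy.
-/

noncomputable section

open Finset

namespace Vale.Agent.P208

variable {E : Type*} [NormedAddCommGroup E] [InnerProductSpace ℝ E]
variable {N W : ℕ} {D : ℝ} {g : ℝ → ℝ → E} {φ : ℕ → ℝ → ℝ → E}

omit [InnerProductSpace ℝ E] in
lemma corner_shift (h : GadgetData N W D g φ) {l a b : ℕ} (ha : a < gL N W) (hb : b < gL N W)
    (hl : Avail N W l a b) {θ : ℝ} (hθ : θ ∈ Set.Icc (0 : ℝ) 1) :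
    ‖(φ l a b - g a b) - (φ l a (b + θ) - g a (b + θ))‖ ≤ 2 * D * θ ∧
    ‖(φ l a b - g a b) - (φ l (a + θ) b - g (a + θ) b)‖ ≤ 2 * D * θ := by
  have hD : 0 ≤ D := by linarith [h.hD]
  have hbox : LipBox D g a b 1 := h.lipg.mono (by positivity)
    (by simpa using cast_succ_le ha) (by positivity) (by simpa using cast_succ_le hb)
  have hphi := h.lipφ l a b ha hb hl
  have ma : (a : ℝ) ∈ Set.Icc (a : ℝ) (a + 1) := ⟨le_rfl, by linarith⟩
  have mb : (b : ℝ) ∈ Set.Icc (b : ℝ) (b + 1) := ⟨le_rfl, by linarith⟩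
  have ma' : (a : ℝ) + θ ∈ Set.Icc (a : ℝ) (a + 1) := ⟨by linarith [hθ.1], by linarith [hθ.2]⟩
  have mb' : (b : ℝ) + θ ∈ Set.Icc (b : ℝ) (b + 1) := ⟨by linarith [hθ.1], by linarith [hθ.2]⟩
  constructor
  · have h1 := hphi _ _ _ _ ma mb ma mb'
    have h2 := hbox _ _ _ _ ma mb ma mb'
    simp only [sub_self, abs_zero, zero_add, sub_add_cancel_left, abs_neg,
      abs_of_nonneg hθ.1] at h1 h2
    calc _ = ‖(φ l a b - φ l a (b + θ)) - (g a b - g a (b + θ))‖ := by congr 1; abel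
      _ ≤ _ := (norm_sub_le _ _).trans (by linarith)
  · have h1 := hphi _ _ _ _ ma mb ma' mb
    have h2 := hbox _ _ _ _ ma mb ma' mb
    simp only [sub_self, abs_zero, add_zero, sub_add_cancel_left, abs_neg,
      abs_of_nonneg hθ.1] at h1 h2
    calc _ = ‖(φ l a b - φ l (a + θ) b) - (g a b - g (a + θ) b)‖ := by congr 1; abel
      _ ≤ _ := (norm_sub_le _ _).trans (by linarith)

omit [InnerProductSpace ℝ E] in
lemma conflict_window (h : GadgetData N W D g φ)
    (hP : ∀ v : Fin N → E, (∀ i, ‖v i‖ ≤ D) → ∃ i j, i ≠ j ∧ ‖v i - v j‖ ≤ 1 / 4)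
    {al be w : ℕ} (hal : al < W * W + 1) (hbe : be < W * (W * W + 1)) (hw : w < W)
    {θ : ℝ} (hθ : θ ∈ Set.Icc (0 : ℝ) (1 / (32 * D))) :
    (1 / 16 : ℝ) ≤ ((N * W : ℕ) : ℝ) * ∑ i ∈ range N, ∑ u ∈ range (N * W),
        stripTerm g (fun b => φ (b % N)) θ (al * (N * W) + u) (be * N + i)
      + (N : ℝ) * ∑ j ∈ range N, ∑ u ∈ range N,
        stripTerm (fun x y => g y x) (fun a x y => φ ((a / W) % N) y x) θ
          (be * N + u) (al * (N * W) + (j * W + w)) := by
  have hD := h.hD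
  have hθ1 : θ ∈ Set.Icc (0 : ℝ) 1 :=
    ⟨hθ.1, hθ.2.trans (by rw [div_le_one (by linarith)]; linarith)⟩
  have hDθ : 2 * D * θ ≤ 1 / 16 := by
    calc 2 * D * θ ≤ 2 * D * (1 / (32 * D)) := mul_le_mul_of_nonneg_left hθ.2 (by linarith)
      _ = 1 / 16 := by field_simp; norm_num
  set L := gL N W with hL
  let A : ℕ → ℕ := fun i => al * (N * W) + (i * W + w)
  let B : ℕ → ℕ := fun i => be * N + i
  have hA0 : ∀ i, i < N → i * W + w < N * W := by
    intro i hi
    calc i * W + w < i * W + W := by omega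
      _ = (i + 1) * W := by ring
      _ ≤ N * W := Nat.mul_le_mul_right _ hi
  have hA : ∀ i, i < N → A i < L := by
    intro i hi
    calc A i < al * (N * W) + N * W := Nat.add_lt_add_left (hA0 i hi) _
      _ = (al + 1) * (N * W) := by ring
      _ ≤ (W * W + 1) * (N * W) := Nat.mul_le_mul_right _ hal
      _ = L := by rw [hL, gL]; ring
  have hB : ∀ i, i < N → B i < L := by
    intro i hi
    calc B i < be * N + N := Nat.add_lt_add_left hi _
      _ = (be + 1) * N := by ring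
      _ ≤ (W * (W * W + 1)) * N := Nat.mul_le_mul_right _ hbe
      _ = L := by rw [hL, gL]; ring
  have lA : ∀ i, i < N → (A i / W) % N = i := by
    intro i hi
    have e : A i = (al * N + i) * W + w := by simp only [A]; ring
    rw [e, label_block h.hW hw, Nat.mul_add_mod_self_right, Nat.mod_eq_of_lt hi]
  have lB : ∀ i, i < N → B i % N = i := by
    intro i hi
    simp only [B]
    rw [Nat.mul_add_mod_self_right, Nat.mod_eq_of_lt hi]
  let v : Fin N → E := fun i => φ i (A i) (B i) - g (A i) (B i)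
  obtain ⟨i, j, hij, hv⟩ := hP v (fun i => h.near i (A i) (B i) (hA i i.2) (hB i i.2)
    (Or.inl (lB i i.2)) _ ⟨le_rfl, by linarith⟩ _ ⟨le_rfl, by linarith⟩)
  set P := φ i (A j) (B i) - g (A j) (B i) with hPd
  set Q := φ j (A j) (B i) - g (A j) (B i) with hQd
  have hsep : 1 ≤ ‖P - Q‖ := by
    have := h.sep i j (A j) (B i) (hA j j.2) (hB i i.2) (Or.inl (lB i i.2))
      (Or.inr (lA j j.2)) (fun e => hij (Fin.ext e))
    simpa [P, Q] using this
  let zr : ℕ → E := fun u => φ i u ((B i : ℕ) + θ) - g u ((B i : ℕ) + θ)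
  let zc : ℕ → E := fun u => φ j ((A j : ℕ) + θ) u - g ((A j : ℕ) + θ) u
  have s1 := (corner_shift h (hA j j.2) (hB i i.2) (Or.inl (lB i i.2)) hθ1).1
  have s2 := (corner_shift h (hA i i.2) (hB i i.2) (Or.inl (lB i i.2)) hθ1).1
  have s3 := (corner_shift h (hA j j.2) (hB i i.2) (Or.inr (lA j j.2)) hθ1).2
  have s4 := (corner_shift h (hA j j.2) (hB j j.2) (Or.inr (lA j j.2)) hθ1).2
  have t1 : ‖P - v i‖ ≤ ‖zr (A j) - zr (A i)‖ + 1 / 8 := by
    have e : P - v i = (P - zr (A j)) + (zr (A j) - zr (A i)) + (zr (A i) - v i) := by abel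
    rw [e]
    refine (norm_add₃_le).trans ?_
    rw [norm_sub_rev (zr (A i)) (v i)]
    change ‖P - zr (A j)‖ ≤ _ at s1
    change ‖v i - zr (A i)‖ ≤ _ at s2
    linarith
  have t2 : ‖Q - v j‖ ≤ ‖zc (B i) - zc (B j)‖ + 1 / 8 := by
    have e : Q - v j = (Q - zc (B i)) + (zc (B i) - zc (B j)) + (zc (B j) - v j) := by abel
    rw [e]
    refine (norm_add₃_le).trans ?_
    rw [norm_sub_rev (zc (B j)) (v j)]
    change ‖Q - zc (B i)‖ ≤ _ at s3
    change ‖v j - zc (B j)‖ ≤ _ at s4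
    linarith
  have hsum : (1 / 2 : ℝ) ≤ ‖zr (A j) - zr (A i)‖ + ‖zc (B i) - zc (B j)‖ := by
    have e : P - Q = (P - v i) + (v i - v j) + (v j - Q) := by abel
    have h1 := hsep
    rw [e] at h1
    have h2 := norm_add₃_le (a := P - v i) (b := v i - v j) (c := v j - Q)
    rw [norm_sub_rev (v j) Q] at h2
    linarith
  have w1 := window_sq zr (al * (N * W)) (N * W) (A j) (A i) (Nat.le_add_right _ _)
    (Nat.add_le_add_left (hA0 j j.2).le _) (Nat.le_add_right _ _)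
    (Nat.add_le_add_left (hA0 i i.2).le _)
  have w2 := window_sq zc (be * N) N (B i) (B j) (Nat.le_add_right _ _)
    (Nat.add_le_add_left i.2.le _) (Nat.le_add_right _ _) (Nat.add_le_add_left j.2.le _)
  have r1 : ∑ u ∈ range (N * W), ‖zr (al * (N * W) + u + 1) - zr (al * (N * W) + u)‖ ^ 2
      ≤ ∑ i ∈ range N, ∑ u ∈ range (N * W),
        stripTerm g (fun b => φ (b % N)) θ (al * (N * W) + u) (be * N + i) := by
    refine le_trans (le_of_eq ?_) (single_le_sum (f := fun i => ∑ u ∈ range (N * W),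
        stripTerm g (fun b => φ (b % N)) θ (al * (N * W) + u) (be * N + i))
      (fun _ _ => sum_nonneg fun _ _ => sq_nonneg _) (Finset.mem_range.2 i.2))
    refine sum_congr rfl fun u _ => ?_
    simp only [stripTerm, zr, B]
    rw [show (be * N + (i : ℕ)) % N = i from lB i i.2]
    push_cast
    rfl
  have r2 : ∑ u ∈ range N, ‖zc (be * N + u + 1) - zc (be * N + u)‖ ^ 2
      ≤ ∑ j ∈ range N, ∑ u ∈ range N,
        stripTerm (fun x y => g y x) (fun a x y => φ ((a / W) % N) y x) θ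
          (be * N + u) (al * (N * W) + (j * W + w)) := by
    refine le_trans (le_of_eq ?_) (single_le_sum (f := fun j => ∑ u ∈ range N,
        stripTerm (fun x y => g y x) (fun a x y => φ ((a / W) % N) y x) θ
          (be * N + u) (al * (N * W) + (j * W + w)))
      (fun _ _ => sum_nonneg fun _ _ => sq_nonneg _) (Finset.mem_range.2 j.2))
    refine sum_congr rfl fun u _ => ?_
    simp only [stripTerm, zc, A]
    rw [show ((al * (N * W) + ((j : ℕ) * W + w)) / W) % N = j from lA j j.2]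
    push_cast
    rfl
  have := mul_le_mul_of_nonneg_left r1 (Nat.cast_nonneg (α := ℝ) (N * W))
  have := mul_le_mul_of_nonneg_left r2 (Nat.cast_nonneg (α := ℝ) N)
  nlinarith [sq_nonneg (‖zr (A j) - zr (A i)‖ - ‖zc (B i) - zc (B j)‖),
    pow_le_pow_left₀ (by norm_num : (0 : ℝ) ≤ 1 / 2) hsum 2]

omit [InnerProductSpace ℝ E] in
/-- Summed over all windows. -/
lemma conflict_total (h : GadgetData N W D g φ)
    (hP : ∀ v : Fin N → E, (∀ i, ‖v i‖ ≤ D) → ∃ i j, i ≠ j ∧ ‖v i - v j‖ ≤ 1 / 4)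
    {θ : ℝ} (hθ : θ ∈ Set.Icc (0 : ℝ) (1 / (32 * D))) :
    ((W * W + 1 : ℕ) : ℝ) ^ 2 * (W : ℝ) ^ 2 / 16 ≤
      (N : ℝ) * (W : ℝ) ^ 2 * ∑ b ∈ range (gL N W), ∑ a ∈ range (gL N W),
        stripTerm g (fun b => φ (b % N)) θ a b
      + (N : ℝ) * ∑ a ∈ range (gL N W), ∑ b ∈ range (gL N W),
        stripTerm (fun x y => g y x) (fun a x y => φ ((a / W) % N) y x) θ b a := by
  have hs := sum_le_sum (s := range (W * W + 1)) fun al hal =>
    sum_le_sum (s := range (W * (W * W + 1))) fun be hbe =>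
      sum_le_sum (s := range W) fun w hw => conflict_window h hP
        (Finset.mem_range.1 hal) (Finset.mem_range.1 hbe) (Finset.mem_range.1 hw) hθ
  simp only [sum_add_distrib, sum_const, card_range, nsmul_eq_mul, ← mul_sum] at hs
  have e1 : ∑ b ∈ range (gL N W), ∑ a ∈ range (gL N W),
        stripTerm g (fun b => φ (b % N)) θ a b
      = ∑ al ∈ range (W * W + 1), ∑ be ∈ range (W * (W * W + 1)), ∑ i ∈ range N,
          ∑ u ∈ range (N * W),
            stripTerm g (fun b => φ (b % N)) θ (al * (N * W) + u) (be * N + i) := by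
    rw [show range (gL N W) = range ((W * (W * W + 1)) * N) by congr 1; rw [gL]; ring,
      sum_range_blocks]
    rw [show (W * (W * W + 1)) * N = (W * W + 1) * (N * W) by ring]
    simp only [sum_range_blocks _ (W * W + 1) (N * W)]
    symm
    rw [sum_comm]
    exact sum_congr rfl fun be _ => sum_comm
  have e2 : ∑ a ∈ range (gL N W), ∑ b ∈ range (gL N W),
        stripTerm (fun x y => g y x) (fun a x y => φ ((a / W) % N) y x) θ b a
      = ∑ al ∈ range (W * W + 1), ∑ be ∈ range (W * (W * W + 1)), ∑ w ∈ range W,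
          ∑ j ∈ range N, ∑ u ∈ range N,
            stripTerm (fun x y => g y x) (fun a x y => φ ((a / W) % N) y x) θ
              (be * N + u) (al * (N * W) + (j * W + w)) := by
    rw [show range (gL N W) = range ((W * W + 1) * (N * W)) by congr 1; rw [gL]; ring,
      sum_range_blocks]
    refine sum_congr rfl fun al _ => ?_
    rw [show (W * W + 1) * (N * W) = (W * (W * W + 1)) * N by ring, sum_range_blocks]
    simp only [sum_range_blocks _ (W * (W * W + 1)) N]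
    rw [sum_comm (s := range N) (t := range W)]
    simp only [sum_comm (s := range W) (t := range (W * (W * W + 1))),
      sum_comm (s := range N) (t := range (W * (W * W + 1)))]
  rw [e1, e2]
  refine le_trans (le_of_eq ?_) (hs.trans (le_of_eq ?_))
  · push_cast; ring
  · push_cast; ring

lemma gadget_arith {N W L K D η ε c δ : ℝ} (eL : L = N * W * (W * W + 1))
    (eK : K = (W * W + 1) ^ 2 * W ^ 2 / 16) (hW : 1 ≤ W)
    (low' : δ * K ≤ N * W ^ 2 * (6 * L ^ 2 * η + 24 * D ^ 2 * L) +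
      N * (3 * (L ^ 2 * (2 * c + D ^ 2 / ε * (2 * η + 4 * D ^ 2 / W))) + 24 * D ^ 2 * L)) :
    δ / 16 ≤ 6 * N ^ 3 * W ^ 2 * η + 48 * D ^ 2 * N ^ 2 / W
      + 6 * N ^ 3 * c + 6 * N ^ 3 * D ^ 2 * η / ε
      + 12 * N ^ 3 * D ^ 4 / (ε * W) := by
  rw [eL, eK] at low'
  set R : ℝ := W * W + 1 with hRd
  have hR0 : 0 < R := by positivity
  have key : δ / 16 ≤ 6 * N ^ 3 * W ^ 2 * η + 24 * D ^ 2 * N ^ 2 * (W / R)
      + 6 * N ^ 3 * c + 6 * N ^ 3 * D ^ 2 * η / ε
      + 12 * N ^ 3 * D ^ 4 / (ε * W) + 24 * D ^ 2 * N ^ 2 / (W * R) := by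
    refine le_of_mul_le_mul_right ?_ (show 0 < R ^ 2 * W ^ 2 by positivity)
    refine le_of_eq_of_le (by ring) (low'.trans (le_of_eq ?_))
    field_simp
    ring
  have w1 : W / R ≤ 1 / W := by
    rw [div_le_div_iff₀ hR0 (by linarith)]; nlinarith
  have w2 : 24 * D ^ 2 * N ^ 2 / (W * R) ≤ 24 * D ^ 2 * N ^ 2 / W := by
    apply div_le_div_of_nonneg_left (by positivity) (by linarith)
    nlinarith
  have w3 := mul_le_mul_of_nonneg_left w1 (show 0 ≤ 24 * D ^ 2 * N ^ 2 by positivity)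
  rw [mul_one_div] at w3
  have : 48 * D ^ 2 * N ^ 2 / W = 2 * (24 * D ^ 2 * N ^ 2 / W) := by ring
  linarith


/-- The gadget theorem. -/
theorem gadget (h : GadgetData N W D g φ)
    (hP : ∀ v : Fin N → E, (∀ i, ‖v i‖ ≤ D) → ∃ i j, i ≠ j ∧ ‖v i - v j‖ ≤ 1 / 4)
    {η ε c : ℝ} (hη : 0 ≤ η) (hε : 0 < ε) (hc : 0 ≤ c)
    (hA : ∀ a b, a < gL N W → b < gL N W → hE g a b ≤ hPar g (gL N W) + η)
    (hA' : ∀ l a b, a < gL N W → b < gL N W → Avail N W l a b →
      hE (φ l) a b ≤ hPar g (gL N W) + η)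
    (hB : ∀ a b, a < gL N W → b < gL N W → hPar g (gL N W) - ε ≤ hE g a b →
      vE g a b ≤ vPar g (gL N W) + c)
    (hB' : ∀ l a b, a < gL N W → b < gL N W → Avail N W l a b →
      hPar g (gL N W) - ε ≤ hE (φ l) a b → vE (φ l) a b ≤ vPar g (gL N W) + c) :
    1 / (32 * D) / 16 ≤ 6 * (N : ℝ) ^ 3 * (W : ℝ) ^ 2 * η + 48 * D ^ 2 * (N : ℝ) ^ 2 / W
      + 6 * (N : ℝ) ^ 3 * c + 6 * (N : ℝ) ^ 3 * D ^ 2 * η / ε
      + 12 * (N : ℝ) ^ 3 * D ^ 4 / (ε * W) := by
  set L := gL N W with hLd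
  have hL : 0 < L := gL_pos h.hN h.hW
  have hD : 0 ≤ D := by linarith [h.hD]
  set H := hPar g L
  set V := vPar g L
  have hV0 : 0 ≤ V + c := by have := hPar_nonneg (fun x y => g y x) L; simp only [V, vPar]; linarith
  set δ := 1 / (32 * D) with hδ
  have hδ0 : 0 ≤ δ := by positivity
  have hδ1 : δ ≤ 1 := by rw [hδ, div_le_one (by linarith [h.hD])]; linarith [h.hD]
  have hR := h.rows
  have hC := h.cols
  let TR : ℝ → ℝ := fun θ => ∑ b ∈ range L, ∑ a ∈ range L,
    stripTerm g (fun b => φ (b % N)) θ a b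
  let TC : ℝ → ℝ := fun θ => ∑ a ∈ range L, ∑ b ∈ range L,
    stripTerm (fun x y => g y x) (fun a x y => φ ((a / W) % N) y x) θ b a
  have iR : IntervalIntegrable TR MeasureTheory.volume 0 1 :=
    intervalIntegrable_sum fun b hb => intervalIntegrable_sum fun a ha =>
      hR.iT (Finset.mem_range.1 ha) (Finset.mem_range.1 hb)
  have iC : IntervalIntegrable TC MeasureTheory.volume 0 1 :=
    intervalIntegrable_sum fun b hb => intervalIntegrable_sum fun a ha =>
      hC.iT (Finset.mem_range.1 ha) (Finset.mem_range.1 hb)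
  have bR : ∫ θ in (0 : ℝ)..1, TR θ ≤ 6 * (L : ℝ) ^ 2 * η + 24 * D ^ 2 * L := by
    refine (strip_bound hR hL).trans ?_
    have a1 : ∀ b ∈ range L, ∀ a ∈ range L, hE (φ (b % N)) a b ≤ H + η := fun b hb a ha =>
      hA' _ a b (Finset.mem_range.1 ha) (Finset.mem_range.1 hb) (Or.inl rfl)
    have a2 : ∀ b ∈ range L, ∀ a ∈ range L, hE g a b ≤ H + η := fun b hb a ha =>
      hA a b (Finset.mem_range.1 ha) (Finset.mem_range.1 hb)
    have s1 := sum_le_sum fun b hb => sum_le_sum (a1 b hb)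
    have s2 := sum_le_sum fun b hb => sum_le_sum (a2 b hb)
    simp only [sum_const, card_range, nsmul_eq_mul] at s1 s2
    nlinarith
  let s := range L ×ˢ range L
  have hcard : (s.card : ℝ) = (L : ℝ) ^ 2 := by simp [s, sq]
  have hm : ∀ p ∈ s, p.1 < L ∧ p.2 < L := by simp [s]
  have base_low : (L : ℝ) ^ 2 * H ≤ ∑ p ∈ s, hE g p.1 p.2 := by
    rw [sum_product]
    exact sum_hE_ge g L hL hD h.lipg
  have col_low : (L : ℝ) ^ 2 * H - 4 * D ^ 2 * (L : ℝ) ^ 2 / W
      ≤ ∑ p ∈ s, hE (φ ((p.1 / W) % N)) p.1 p.2 := by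
    rw [sum_product_right]
    exact col_hE_ge h
  have vb := sum_cells_le s (fun p => hE g p.1 p.2) (fun p => vE g p.1 p.2) H V ε η D c hε hη hV0
    (fun p hp => hA _ _ (hm p hp).1 (hm p hp).2)
    (fun p hp => vE_le_sq hD (h.lipg.mono (by positivity)
      (by simpa using cast_succ_le (hm p hp).1) (by positivity)
      (by simpa using cast_succ_le (hm p hp).2)))
    (fun p hp => hB _ _ (hm p hp).1 (hm p hp).2)
  have vc := sum_cells_le s (fun p => hE (φ ((p.1 / W) % N)) p.1 p.2)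
    (fun p => vE (φ ((p.1 / W) % N)) p.1 p.2) H V ε η D c hε hη hV0
    (fun p hp => hA' _ _ _ (hm p hp).1 (hm p hp).2 (Or.inr rfl))
    (fun p hp => vE_le_sq hD (h.lipφ _ _ _ (hm p hp).1 (hm p hp).2 (Or.inr rfl)))
    (fun p hp => hB' _ _ _ (hm p hp).1 (hm p hp).2 (Or.inr rfl))
  have bC : ∫ θ in (0 : ℝ)..1, TC θ ≤ 3 * ((L : ℝ) ^ 2 *
      (2 * c + D ^ 2 / ε * (2 * η + 4 * D ^ 2 / W))) + 24 * D ^ 2 * L := by
    refine (strip_bound hC hL).trans ?_
    rw [sum_product] at vb vc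
    change 3 * (∑ a ∈ range L, ∑ b ∈ range L, vE (φ ((a / W) % N)) a b
      + ∑ a ∈ range L, ∑ b ∈ range L, vE g a b - 2 * ((L : ℝ) ^ 2 * V)) + _ ≤ _
    rw [hcard] at vb vc
    have hd : 0 ≤ D ^ 2 / ε := by positivity
    have e4 : 4 * D ^ 2 * (L : ℝ) ^ 2 / W = (L : ℝ) ^ 2 * (4 * D ^ 2 / W) := by ring
    rw [e4] at col_low
    nlinarith [mul_le_mul_of_nonneg_left base_low hd, mul_le_mul_of_nonneg_left col_low hd]
  let K : ℝ := ((W * W + 1 : ℕ) : ℝ) ^ 2 * (W : ℝ) ^ 2 / 16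
  let T : ℝ → ℝ := fun θ => (N : ℝ) * (W : ℝ) ^ 2 * TR θ + (N : ℝ) * TC θ
  have iT : IntervalIntegrable T MeasureTheory.volume 0 1 :=
    (iR.const_mul _).add (iC.const_mul _)
  have hTnn : ∀ θ, 0 ≤ T θ := fun θ =>
    add_nonneg (mul_nonneg (by positivity) (sum_nonneg fun _ _ => sum_nonneg fun _ _ => sq_nonneg _))
      (mul_nonneg (by positivity) (sum_nonneg fun _ _ => sum_nonneg fun _ _ => sq_nonneg _))
  have low : δ * K ≤ ∫ θ in (0 : ℝ)..1, T θ := by
    calc δ * K = ∫ _θ in (0 : ℝ)..δ, K := by simp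
      _ ≤ ∫ θ in (0 : ℝ)..δ, T θ := by
          refine intervalIntegral.integral_mono_on hδ0 intervalIntegrable_const
            (iT.mono_set ?_) (fun θ hθ => conflict_total h hP hθ)
          rw [Set.uIcc_of_le hδ0, Set.uIcc_of_le zero_le_one]
          exact Set.Icc_subset_Icc le_rfl hδ1
      _ ≤ _ := intervalIntegral.integral_mono_interval le_rfl hδ0 hδ1
          (Filter.Eventually.of_forall hTnn) iT
  have eT : ∫ θ in (0 : ℝ)..1, T θ = (N : ℝ) * (W : ℝ) ^ 2 * (∫ θ in (0 : ℝ)..1, TR θ)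
      + (N : ℝ) * ∫ θ in (0 : ℝ)..1, TC θ := by
    rw [intervalIntegral.integral_add (iR.const_mul _) (iC.const_mul _),
      intervalIntegral.integral_const_mul, intervalIntegral.integral_const_mul]
  rw [eT] at low
  have low' : δ * K ≤ (N : ℝ) * (W : ℝ) ^ 2 * (6 * (L : ℝ) ^ 2 * η + 24 * D ^ 2 * L) +
      (N : ℝ) * (3 * ((L : ℝ) ^ 2 * (2 * c + D ^ 2 / ε * (2 * η + 4 * D ^ 2 / W)))
        + 24 * D ^ 2 * L) :=
    low.trans (add_le_add (mul_le_mul_of_nonneg_left bR (by positivity))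
      (mul_le_mul_of_nonneg_left bC (by positivity)))
  exact gadget_arith (by simp [L, gL]) (by simp [K]) (by exact_mod_cast h.hW) low'

end Vale.Agent.P208
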