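import Vale.Agent.P208.Conflict

/-!
The set: a union of flat squares with lifted copies along orthonormal directions.
-/

noncomputable section

open Finset

namespace Vale.Agent.P208

/-- Number of labels at level `t`. -/
def schN (t : ℕ) : ℕ := (Nat.unpair (Nat.unpair t).1).1 + 1

/-- Column width at level `t`. -/
def schW (t : ℕ) : ℕ := (Nat.unpair (Nat.unpair t).1).2 + 1

/-- Subdivision at level `t`. -/
def schL (t : ℕ) : ℕ := gL (schN t) (schW t)

lemma schN_pos (t : ℕ) : 0 < schN t := Nat.succ_pos _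

lemma schW_pos (t : ℕ) : 0 < schW t := Nat.succ_pos _

lemma two_le_schL (t : ℕ) : 2 ≤ schL t := by
  have h1 : 1 ≤ schN t := schN_pos t
  have h2 : 1 ≤ schW t := schW_pos t
  calc 2 = 1 * 1 * (1 * 1 + 1) := by norm_num
    _ ≤ schN t * schW t * (schW t * schW t + 1) :=
        Nat.mul_le_mul (Nat.mul_le_mul h1 h2) (Nat.add_le_add_right (Nat.mul_le_mul h2 h2) 1)

lemma schL_pos (t : ℕ) : 0 < schL t := by have := two_le_schL t; omega

/-- Side of a square at level `t`. -/
def side : ℕ → ℝ
  | 0 => 1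
  | t + 1 => side t / schL t

lemma side_pos : ∀ t, 0 < side t
  | 0 => one_pos
  | t + 1 => div_pos (side_pos t) (by exact_mod_cast schL_pos t)

lemma side_succ_mul (t : ℕ) : side (t + 1) * schL t = side t := by
  have : (schL t : ℝ) ≠ 0 := by exact_mod_cast (schL_pos t).ne'
  show side t / schL t * schL t = side t
  field_simp

lemma two_side_succ_le (t : ℕ) : 2 * side (t + 1) ≤ side t := by
  have h : (2 : ℝ) ≤ schL t := by exact_mod_cast two_le_schL t
  nlinarith [side_succ_mul t, mul_le_mul_of_nonneg_left h (side_pos (t + 1)).le]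

lemma side_add_le (t n : ℕ) : 2 ^ n * side (t + n) ≤ side t := by
  induction n with
  | zero => simp
  | succ n ih =>
    have := two_side_succ_le (t + n)
    rw [pow_succ, ← add_assoc]
    nlinarith [pow_pos (two_pos (α := ℝ)) n]

lemma side_antitone {t t' : ℕ} (h : t ≤ t') : side t' ≤ side t := by
  obtain ⟨n, rfl⟩ := Nat.exists_eq_add_of_le h
  have := side_add_le t n
  have h1 : (1 : ℝ) ≤ 2 ^ n := one_le_pow₀ (by norm_num)
  nlinarith [side_pos (t + n)]

lemma exists_side_le {r : ℝ} (hr : 0 < r) : ∃ t, side (t + 1) ≤ r := by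
  obtain ⟨n, hn⟩ := pow_unbounded_of_one_lt (1 / r) (one_lt_two (α := ℝ))
  refine ⟨n, (side_antitone (Nat.le_succ n)).trans ?_⟩
  have := side_add_le 0 n
  rw [Nat.zero_add] at this
  rw [div_lt_iff₀ hr] at hn
  have h0 : side 0 = 1 := rfl
  nlinarith [side_pos n, pow_pos (two_pos (α := ℝ)) n]

lemma sum_side_le (t n : ℕ) :
    ∑ r ∈ range n, side (t + r + 1) ≤ 2 * side (t + 1) - 2 * side (t + n + 1) := by
  induction n with
  | zero => simp
  | succ n ih =>
    rw [sum_range_succ]
    have := two_side_succ_le (t + n + 1)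
    rw [show t + (n + 1) + 1 = t + n + 1 + 1 by ring]
    linarith

variable {H : Type*} [NormedAddCommGroup H] [InnerProductSpace ℝ H] (e : ℕ → H)

/-- Position with planar coordinates `(x, y)` and offset `z`. -/
def pt (x y : ℝ) (z : H) : H := x • e 0 + y • e 1 + z

/-- Offset chosen at level `t`. -/
def vec (t : ℕ) : Option ℕ → H
  | none => 0
  | some l => side (t + 1) • e (Nat.pair t l + 2)

/-- The squares of level `t`. -/
def Sheet : ℕ → ℕ → ℕ → H → Prop
  | 0, a, b, z => a = 0 ∧ b = 0 ∧ z = 0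
  | t + 1, a, b, z => ∃ z₀ o, Sheet t (a / schL t) (b / schL t) z₀ ∧
      (∀ l, o = some l → Avail (schN t) (schW t) l a b) ∧ z = z₀ + vec e t o

/-- The set. -/
def bigSet : Set H :=
  {p | ∃ t a b z, Sheet e t a b z ∧ ∃ x ∈ Set.Icc (a * side t) ((a + 1) * side t),
    ∃ y ∈ Set.Icc (b * side t) ((b + 1) * side t), p = pt e x y z}

/-- Description of a point by its offsets. -/
def Hist (x y : ℝ) (T : ℕ) (w : ℕ → Option ℕ) : Prop :=
  (∀ r, T ≤ r → w r = none) ∧ ∀ r l, w r = some l → ∃ i j : ℕ, Avail (schN r) (schW r) l i j ∧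
    x ∈ Set.Icc (i * side (r + 1)) ((i + 1) * side (r + 1)) ∧
    y ∈ Set.Icc (j * side (r + 1)) ((j + 1) * side (r + 1))

lemma sheet_hist : ∀ t a b z, Sheet e t a b z → ∃ w : ℕ → Option ℕ,
    z = ∑ r ∈ range t, vec e r (w r) ∧ ∀ x ∈ Set.Icc (a * side t) ((a + 1) * side t),
      ∀ y ∈ Set.Icc (b * side t) ((b + 1) * side t), Hist x y t w := by
  intro t
  induction t with
  | zero =>
    rintro a b z ⟨-, -, rfl⟩
    exact ⟨fun _ => none, by simp, fun x _ y _ => ⟨fun _ _ => rfl, fun _ _ h => by simp at h⟩⟩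
  | succ t ih =>
    rintro a b z ⟨z₀, o, h0, ho, rfl⟩
    obtain ⟨w, rfl, hw⟩ := ih _ _ _ h0
    refine ⟨Function.update w t o, ?_, ?_⟩
    · rw [sum_range_succ, Function.update_self]
      congr 1
      refine sum_congr rfl fun r hr => ?_
      rw [Function.update_of_ne (Finset.mem_range.1 hr).ne]
    intro x hx y hy
    have key : ∀ (c : ℕ) (v : ℝ), v ∈ Set.Icc (c * side (t + 1)) ((c + 1) * side (t + 1)) →
        v ∈ Set.Icc (((c / schL t : ℕ) : ℝ) * side t) ((((c / schL t : ℕ) : ℝ) + 1) * side t) := by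
      intro c v hv
      have h1 : (((c / schL t : ℕ) : ℝ)) * schL t ≤ c := by
        exact_mod_cast Nat.div_mul_le_self c (schL t)
      have h2 : (c : ℝ) + 1 ≤ (((c / schL t : ℕ) : ℝ) + 1) * schL t := by
        exact_mod_cast (Nat.lt_mul_div_succ c (schL_pos t)).trans_eq (mul_comm _ _)
      rw [← side_succ_mul t]
      constructor <;> nlinarith [hv.1, hv.2, side_pos (t + 1)]
    obtain ⟨w1, w2⟩ := hw x (key a x hx) y (key b y hy)
    refine ⟨fun r hr => ?_, fun r l hl => ?_⟩
    · rw [Function.update_of_ne (by omega)]; exact w1 r (by omega)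
    · by_cases hr : r = t
      · subst hr
        rw [Function.update_self] at hl
        exact ⟨a, b, ho l hl, hx, hy⟩
      · rw [Function.update_of_ne hr] at hl
        exact w2 r l hl

lemma mem_bigSet_hist {p : H} (hp : p ∈ bigSet e) :
    ∃ x y T w, p = pt e x y (∑ r ∈ range T, vec e r (w r)) ∧ Hist x y T w := by
  obtain ⟨t, a, b, z, hS, x, hx, y, hy, rfl⟩ := hp
  obtain ⟨w, rfl, hw⟩ := sheet_hist e t a b z hS
  exact ⟨x, y, t, w, rfl, hw x hx y hy⟩

variable {e}

lemma inner_vec (he : Orthonormal ℝ e) (r : ℕ) (o : Option ℕ) (t l : ℕ) :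
    inner ℝ (e (Nat.pair t l + 2)) (vec e r o)
      = if r = t ∧ o = some l then side (t + 1) else 0 := by
  cases o with
  | none => simp [vec]
  | some m =>
    rw [vec, real_inner_smul_right, orthonormal_iff_ite.1 he]
    by_cases h : r = t ∧ m = l
    · obtain ⟨rfl, rfl⟩ := h; simp
    · have : Nat.pair t l + 2 ≠ Nat.pair r m + 2 := by
        intro h'
        have := Nat.pair_eq_pair.1 (Nat.add_right_cancel h')
        exact h ⟨this.1.symm, this.2.symm⟩
      rw [if_neg this, mul_zero, if_neg (by simpa using h)]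

lemma inner_zero_vec (he : Orthonormal ℝ e) (r : ℕ) (o : Option ℕ) {i : ℕ} (hi : i < 2) :
    inner ℝ (e i) (vec e r o) = 0 := by
  cases o with
  | none => simp [vec]
  | some m =>
    rw [vec, real_inner_smul_right, orthonormal_iff_ite.1 he, if_neg (by omega), mul_zero]

lemma coord_le (he : Orthonormal ℝ e) (x y x' y' : ℝ) (T : ℕ) (w w' : ℕ → Option ℕ) :
    |x - x'| ≤ dist (pt e x y (∑ r ∈ range T, vec e r (w r)))
        (pt e x' y' (∑ r ∈ range T, vec e r (w' r))) ∧
    |y - y'| ≤ dist (pt e x y (∑ r ∈ range T, vec e r (w r)))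
        (pt e x' y' (∑ r ∈ range T, vec e r (w' r))) := by
  have hon := orthonormal_iff_ite.1 he
  have z0 : ∀ (u : ℕ → Option ℕ) {i : ℕ}, i < 2 →
      inner ℝ (e i) (∑ r ∈ range T, vec e r (u r)) = 0 := fun u i hi => by
    rw [inner_sum]; exact sum_eq_zero fun r _ => inner_zero_vec he r _ hi
  rw [dist_eq_norm]
  set d := pt e x y (∑ r ∈ range T, vec e r (w r)) - pt e x' y' (∑ r ∈ range T, vec e r (w' r))
  have h0 : inner ℝ (e 0) d = x - x' := by
    simp [d, pt, inner_sub_right, inner_add_right, real_inner_smul_right, hon, z0, he.norm_eq_one]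
  have h1 : inner ℝ (e 1) d = y - y' := by
    simp [d, pt, inner_sub_right, inner_add_right, real_inner_smul_right, hon, z0, he.norm_eq_one]
  constructor
  · simpa [h0, he.norm_eq_one] using abs_real_inner_le_norm (e 0) d
  · simpa [h1, he.norm_eq_one] using abs_real_inner_le_norm (e 1) d

lemma offset_le (he : Orthonormal ℝ e) (x y x' y' : ℝ) (T : ℕ) (w w' : ℕ → Option ℕ) {r : ℕ}
    (hr : r < T) (h : w r ≠ w' r) :
    side (r + 1) ≤ dist (pt e x y (∑ r ∈ range T, vec e r (w r)))
        (pt e x' y' (∑ r ∈ range T, vec e r (w' r))) := by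
  have hon := orthonormal_iff_ite.1 he
  obtain ⟨l, hl⟩ : ∃ l, (w r = some l ∧ w' r ≠ some l) ∨ (w' r = some l ∧ w r ≠ some l) := by
    cases hw : w r with
    | some l => exact ⟨l, Or.inl ⟨rfl, fun h' => h (hw.trans h'.symm)⟩⟩
    | none =>
      cases hw' : w' r with
      | some l => exact ⟨l, Or.inr ⟨rfl, by simp⟩⟩
      | none => exact absurd (hw.trans hw'.symm) h
  have key : ∀ (u : ℕ → Option ℕ),
      inner ℝ (e (Nat.pair r l + 2)) (∑ q ∈ range T, vec e q (u q))
        = if u r = some l then side (r + 1) else 0 := fun u => by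
    rw [inner_sum, sum_eq_single r]
    · simp [inner_vec he]
    · intro q _ hq; simp [inner_vec he, hq]
    · intro h'; exact absurd (Finset.mem_range.2 hr) h'
  rw [dist_eq_norm]
  set d := pt e x y (∑ r ∈ range T, vec e r (w r)) - pt e x' y' (∑ r ∈ range T, vec e r (w' r))
    with hd
  have hcs := abs_real_inner_le_norm (e (Nat.pair r l + 2)) d
  rw [he.norm_eq_one, one_mul] at hcs
  refine le_trans (le_of_eq ?_) hcs
  simp only [hd, pt, inner_sub_right, inner_add_right, real_inner_smul_right, hon, key]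
  rcases hl with ⟨a, b⟩ | ⟨a, b⟩ <;> simp [a, b, abs_of_pos (side_pos _)]

lemma dist_le_sum (he : Orthonormal ℝ e) (x y x' y' : ℝ) (T t : ℕ) (w w' : ℕ → Option ℕ)
    (h : ∀ r, r < T → r < t → w r = w' r) :
    dist (pt e x y (∑ r ∈ range T, vec e r (w r)))
        (pt e x' y' (∑ r ∈ range T, vec e r (w' r)))
      ≤ |x - x'| + |y - y'| + 4 * side (t + 1) := by
  have hn : ∀ r o, ‖vec e r o‖ ≤ side (r + 1) := by
    intro r o
    cases o with
    | none => simpa [vec] using (side_pos (r + 1)).le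
    | some l => simp [vec, norm_smul, he.norm_eq_one, abs_of_pos (side_pos _)]
  have hsum : ∑ r ∈ range T, ‖vec e r (w r) - vec e r (w' r)‖ ≤ 4 * side (t + 1) := by
    rcases le_total T t with hT | hT
    · rw [sum_eq_zero fun r hr => by
        rw [h r (Finset.mem_range.1 hr) ((Finset.mem_range.1 hr).trans_le hT), sub_self, norm_zero]]
      linarith [side_pos (t + 1)]
    · obtain ⟨n, rfl⟩ := Nat.exists_eq_add_of_le hT
      rw [sum_range_add, sum_eq_zero fun r hr => by
        rw [h r (by have := Finset.mem_range.1 hr; omega) (Finset.mem_range.1 hr), sub_self,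
          norm_zero], zero_add]
      have h2 : ∀ r ∈ range n, ‖vec e (t + r) (w (t + r)) - vec e (t + r) (w' (t + r))‖
          ≤ 2 * side (t + r + 1) := fun r _ =>
        (norm_sub_le _ _).trans (by linarith [hn (t + r) (w (t + r)), hn (t + r) (w' (t + r))])
      refine (sum_le_sum h2).trans ?_
      rw [← mul_sum]
      have := sum_side_le t n
      linarith [side_pos (t + n + 1)]
  rw [dist_eq_norm]
  have : pt e x y (∑ r ∈ range T, vec e r (w r)) - pt e x' y' (∑ r ∈ range T, vec e r (w' r))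
      = (x - x') • e 0 + (y - y') • e 1 + ∑ r ∈ range T, (vec e r (w r) - vec e r (w' r)) := by
    simp only [pt, sum_sub_distrib, sub_smul]; abel
  rw [this]
  refine norm_add₃_le.trans (add_le_add (add_le_add ?_ ?_) ((norm_sum_le _ _).trans hsum))
  · simp [norm_smul, he.norm_eq_one]
  · simp [norm_smul, he.norm_eq_one]

lemma hist_extend (e : ℕ → H) {x y : ℝ} {T : ℕ} {w : ℕ → Option ℕ} (h : Hist x y T w) {T' : ℕ}
    (hT : T ≤ T') :
    ∑ r ∈ range T', vec e r (w r) = ∑ r ∈ range T, vec e r (w r) := by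
  refine (sum_subset (fun r hr => ?_) fun r _ hr => ?_).symm
  · have := Finset.mem_range.1 hr; exact Finset.mem_range.2 (by omega)
  · rw [h.1 r (by simpa using hr)]; rfl

end Vale.Agent.P208
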