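import Vale.Agent.P208.Construction

/-!
The set is doubling.
-/

noncomputable section

open Finset

namespace Vale.Agent.P208

variable {H : Type*} [NormedAddCommGroup H] [InnerProductSpace ℝ H] {e : ℕ → H}

/-- Key of a point in a ball: two grid indices and choices at six critical levels. -/
abbrev Key : Type :=
  ↥(Finset.Icc (-8 : ℤ) 8) × ↥(Finset.Icc (-8 : ℤ) 8) × (Fin 6 → Option (Bool × Fin 131))

lemma index_near {s x x₀ : ℝ} {i : ℕ} (hs : 0 < s) (hx : x ∈ Set.Icc (i * s) ((i + 1) * s))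
    (hd : |x - x₀| < 64 * s) : ∃ k : Fin 131, i = ⌊x₀ / s⌋₊ - 65 + k := by
  obtain ⟨h1, h2⟩ := abs_lt.1 hd
  have a : (i : ℝ) < x₀ / s + 64 := by
    rw [← sub_lt_iff_lt_add, lt_div_iff₀ hs]; nlinarith [hx.1]
  have b : x₀ / s < (i : ℝ) + 65 := by
    rw [div_lt_iff₀ hs]; nlinarith [hx.2]
  set m := ⌊x₀ / s⌋₊ with hm
  have m1 : x₀ / s < (m : ℝ) + 1 := Nat.lt_floor_add_one _
  have a' : i < m + 65 := by
    exact_mod_cast (show (i : ℝ) < ((m + 65 : ℕ) : ℝ) by push_cast; linarith)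
  have b' : m ≤ i + 65 := by
    rcases le_or_gt 0 (x₀ / s) with h | h
    · exact_mod_cast (show (m : ℝ) ≤ ((i + 65 : ℕ) : ℝ) by
        push_cast; linarith [Nat.floor_le h])
    · have : m = 0 := Nat.floor_of_nonpos h.le
      omega
  exact ⟨⟨i - (m - 65), by omega⟩, by simp only; omega⟩

lemma grid_index {d r : ℝ} (hr : 0 < r) (hd : |d| ≤ r) :
    ⌊d / (r / 8)⌋ ∈ Finset.Icc (-8 : ℤ) 8 := by
  have h : |d / (r / 8)| ≤ 8 := by
    rw [abs_div, abs_of_pos (show (0 : ℝ) < r / 8 by linarith), div_le_iff₀ (by linarith)]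
    linarith
  obtain ⟨h1, h2⟩ := abs_le.1 h
  rw [Finset.mem_Icc]
  constructor
  · rw [Int.le_floor]; push_cast; exact h1
  · exact Int.floor_le_iff.2 (by push_cast; linarith)

lemma grid_close {x x' x₀ r : ℝ} (hr : 0 < r)
    (h : ⌊(x - x₀) / (r / 8)⌋ = ⌊(x' - x₀) / (r / 8)⌋) : |x - x'| < r / 8 := by
  have := Int.abs_sub_lt_one_of_floor_eq_floor h
  rw [← sub_div, abs_div, abs_of_pos (show (0 : ℝ) < r / 8 by linarith), div_lt_one (by linarith),
    sub_sub_sub_cancel_right] at this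
  exact this

/-- `bigSet` is doubling. -/
theorem bigSet_doubling (he : Orthonormal ℝ e) :
    ∃ K : ℕ, ∀ p ∈ bigSet e, ∀ r : ℝ, 0 < r → ∃ C : Finset H, (C : Set H) ⊆ bigSet e ∧
      C.card ≤ K ∧ ∀ q ∈ bigSet e, dist q p ≤ r → ∃ c ∈ C, dist q c < r / 2 := by
  classical
  obtain ⟨K, hK⟩ : ∃ K, ∀ S : Finset Key, S.card ≤ K := ⟨_, fun S => Finset.card_le_univ S⟩
  refine ⟨K, ?_⟩
  intro p hp r hr
  obtain ⟨x₀, y₀, T₀, w₀, rfl, h₀⟩ := mem_bigSet_hist e hp
  set p := pt e x₀ y₀ (∑ i ∈ range T₀, vec e i (w₀ i)) with hpdef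
  let P1 : ℕ → Prop := fun t => side (t + 1) ≤ r
  let P0 : ℕ → Prop := fun t => side (t + 1) ≤ r / 64
  have e1 : ∃ t, P1 t := exists_side_le hr
  have e0 : ∃ t, P0 t := exists_side_le (by linarith)
  set t₁ := Nat.find e1 with ht₁
  set t₀ := Nat.find e0 with ht₀
  have ht : t₀ ≤ t₁ + 6 := by
    refine Nat.find_le ?_
    show side (t₁ + 6 + 1) ≤ r / 64
    have h1 := side_add_le (t₁ + 1) 6
    have h2 : side (t₁ + 1) ≤ r := Nat.find_spec e1
    rw [show t₁ + 1 + 6 = t₁ + 6 + 1 by ring] at h1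
    norm_num at h1
    linarith
  let cand : ℕ → Bool × Fin 131 → ℕ := fun u c =>
    if c.1 then (⌊y₀ / side (u + 1)⌋₊ - 65 + c.2) % schN u
    else ((⌊x₀ / side (u + 1)⌋₊ - 65 + c.2) / schW u) % schN u
  let Good : Key → H → Prop := fun κ q => ∃ x y T w,
    q = pt e x y (∑ i ∈ range T, vec e i (w i)) ∧ Hist x y T w ∧
    ⌊(x - x₀) / (r / 8)⌋ = (κ.1 : ℤ) ∧ ⌊(y - y₀) / (r / 8)⌋ = (κ.2.1 : ℤ) ∧
    (∀ u, u < t₁ → w u = w₀ u) ∧
    ∀ m : Fin 6, t₁ + m < t₀ → w (t₁ + m) = (κ.2.2 m).map (cand (t₁ + m))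
  have hgood : ∀ q ∈ bigSet e, dist q p ≤ r → ∃ κ, Good κ q := by
    intro q hq hd
    obtain ⟨x, y, T, w, rfl, h⟩ := mem_bigSet_hist e hq
    have hd' : dist (pt e x y (∑ i ∈ range (max T T₀), vec e i (w i)))
        (pt e x₀ y₀ (∑ i ∈ range (max T T₀), vec e i (w₀ i))) ≤ r := by
      rw [hist_extend e h (le_max_left _ _), hist_extend e h₀ (le_max_right _ _)]; exact hd
    have hc := coord_le he x y x₀ y₀ (max T T₀) w w₀
    have hx := hc.1.trans hd'
    have hy := hc.2.trans hd'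
    have fine : ∀ u, u < t₁ → w u = w₀ u := by
      intro u hu
      by_contra hne
      have hs : r < side (u + 1) := not_le.1 (Nat.find_min e1 hu)
      by_cases hT : u < max T T₀
      · linarith [(offset_le he x y x₀ y₀ _ w w₀ hT hne).trans hd']
      · apply hne
        rw [h.1 u (by omega), h₀.1 u (by omega)]
    have pick : ∀ m : Fin 6, ∃ o : Option (Bool × Fin 131),
        t₁ + m < t₀ → w (t₁ + m) = o.map (cand (t₁ + m)) := by
      intro m
      cases hw : w (t₁ + m) with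
      | none => exact ⟨none, fun _ => rfl⟩
      | some l =>
        by_cases hm : t₁ + (m : ℕ) < t₀
        swap
        · exact ⟨none, fun h' => absurd h' hm⟩
        obtain ⟨i, j, hav, hi, hj⟩ := h.2 _ l hw
        have hs : r / 64 < side (t₁ + m + 1) := not_le.1 (Nat.find_min e0 hm)
        rcases hav with hav | hav
        · obtain ⟨k, hk⟩ := index_near (side_pos _) hj
            (show |y - y₀| < 64 * side (t₁ + m + 1) by linarith)
          exact ⟨some (true, k), fun _ => by simp [cand, ← hk, hav]⟩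
        · obtain ⟨k, hk⟩ := index_near (side_pos _) hi
            (show |x - x₀| < 64 * side (t₁ + m + 1) by linarith)
          exact ⟨some (false, k), fun _ => by simp [cand, ← hk, hav]⟩
    choose o ho using pick
    exact ⟨(⟨_, grid_index hr hx⟩, ⟨_, grid_index hr hy⟩, o), x, y, T, w, rfl, h, rfl, rfl,
      fine, ho⟩
  have hclose : ∀ κ q q', Good κ q → Good κ q' → dist q q' < r / 2 := by
    rintro κ q q' ⟨x, y, T, w, rfl, h, hx, hy, hf, hm⟩ ⟨x', y', T', w', rfl, h', hx', hy', hf', hm'⟩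
    rw [← hist_extend e h (le_max_left T T'), ← hist_extend e h' (le_max_right T T')]
    have hag : ∀ u, u < max T T' → u < t₀ → w u = w' u := by
      intro u _ hu
      by_cases h1 : u < t₁
      · rw [hf u h1, hf' u h1]
      · obtain ⟨m, hm6, rfl⟩ : ∃ m, m < 6 ∧ u = t₁ + m := ⟨u - t₁, by omega, by omega⟩
        rw [hm ⟨m, hm6⟩ hu, hm' ⟨m, hm6⟩ hu]
    have := dist_le_sum he x y x' y' (max T T') t₀ w w' hag
    have a := grid_close hr (hx.trans hx'.symm)
    have b := grid_close hr (hy.trans hy'.symm)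
    have c : side (t₀ + 1) ≤ r / 64 := Nat.find_spec e0
    linarith
  let occ : Key → Prop := fun κ => ∃ q ∈ bigSet e, Good κ q
  let rep : Key → H := fun κ => if h : occ κ then h.choose else p
  obtain ⟨S, hS⟩ : ∃ S : Finset Key, ∀ κ, κ ∈ S ↔ occ κ :=
    ⟨(Set.toFinite {κ | occ κ}).toFinset, fun κ => by rw [Set.Finite.mem_toFinset]; rfl⟩
  refine ⟨S.image rep, ?_, ?_, ?_⟩
  · intro c hc
    simp only [Finset.coe_image, Set.mem_image, Finset.mem_coe, hS] at hc
    obtain ⟨κ, hκ, rfl⟩ := hc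
    simp only [rep, dif_pos hκ]
    exact hκ.choose_spec.1
  · exact Finset.card_image_le.trans (hK S)
  · intro q hq hd
    obtain ⟨κ, hκ⟩ := hgood q hq hd
    have ho : occ κ := ⟨q, hq, hκ⟩
    refine ⟨rep κ, Finset.mem_image.2 ⟨κ, (hS κ).2 ho, rfl⟩, ?_⟩
    simp only [rep, dif_pos ho]
    exact hclose κ q _ hκ ho.choose_spec.2

end Vale.Agent.P208
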