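import Mathlib

/-!
Averaged horizontal and vertical energies of a map of the plane, and the elementary
inequalities on sequences used for them.
-/

noncomputable section

open Finset

namespace Vale.Agent.P208

variable {E : Type*} [NormedAddCommGroup E] [InnerProductSpace ℝ E]

lemma sum_sq_sub_mean (x : ℕ → E) (L : ℕ) (hL : 0 < L) :
    ∑ a ∈ range L, ‖x (a + 1) - x a - (L : ℝ)⁻¹ • (x L - x 0)‖ ^ 2
      = ∑ a ∈ range L, ‖x (a + 1) - x a‖ ^ 2 - ‖x L - x 0‖ ^ 2 / L := by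
  have hL' : (L : ℝ) ≠ 0 := by positivity
  rw [sum_congr rfl (fun a _ => norm_sub_sq_real (x (a + 1) - x a) ((L : ℝ)⁻¹ • (x L - x 0)))]
  rw [sum_add_distrib, sum_sub_distrib, ← mul_sum, ← sum_inner, sum_range_sub,
    real_inner_smul_right, real_inner_self_eq_norm_sq, sum_const, card_range, nsmul_eq_mul,
    norm_smul]
  simp only [norm_inv, Real.norm_natCast]
  field_simp
  ring

lemma chord_sq_le (x : ℕ → E) (L : ℕ) :
    ‖x L - x 0‖ ^ 2 / L ≤ ∑ a ∈ range L, ‖x (a + 1) - x a‖ ^ 2 := by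
  rcases Nat.eq_zero_or_pos L with h | h
  · subst h; simp
  · have := sum_sq_sub_mean x L h
    have h0 : 0 ≤ ∑ a ∈ range L, ‖x (a + 1) - x a - (L : ℝ)⁻¹ • (x L - x 0)‖ ^ 2 := by
      positivity
    linarith

omit [InnerProductSpace ℝ E] in
lemma chord_compare {p q : E} {D m : ℝ} (hD : 0 ≤ D) (h : ‖p - q‖ ≤ 2 * D) (hq : ‖q‖ ≤ m) :
    ‖q‖ ^ 2 - 4 * D * m ≤ ‖p‖ ^ 2 := by
  have h1 : ‖q‖ ≤ ‖p‖ + 2 * D := by
    have := norm_le_norm_add_norm_sub' q p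
    rw [norm_sub_rev] at this
    linarith
  have h2 := mul_le_mul_of_nonneg_left hq hD
  rcases le_total ‖q‖ (2 * D) with h3 | h3
  · nlinarith [norm_nonneg q, sq_nonneg ‖p‖, mul_le_mul_of_nonneg_right h3 (norm_nonneg q),
      mul_nonneg hD (norm_nonneg q)]
  · have h4 := mul_self_le_mul_self (sub_nonneg.2 h3) (show ‖q‖ - 2 * D ≤ ‖p‖ by linarith)
    nlinarith

lemma diff_energy_le (x y : ℕ → E) (L : ℕ) (hL : 0 < L) (D : ℝ) (hD : 0 ≤ D)
    (h0 : ‖x 0 - y 0‖ ≤ D) (h1 : ‖x L - y L‖ ≤ D) (hy : ‖y L - y 0‖ ≤ D * L) :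
    ∑ a ∈ range L, ‖(x (a + 1) - y (a + 1)) - (x a - y a)‖ ^ 2
      ≤ 3 * (∑ a ∈ range L, ‖x (a + 1) - x a‖ ^ 2 + ∑ a ∈ range L, ‖y (a + 1) - y a‖ ^ 2
          - 2 * (‖y L - y 0‖ ^ 2 / L)) + 24 * D ^ 2 := by
  have hLR : (1 : ℝ) ≤ L := by exact_mod_cast hL
  set m := (L : ℝ)⁻¹ • (y L - y 0) with hm
  set m' := (L : ℝ)⁻¹ • (x L - x 0) with hm'
  have hd : ‖(x L - x 0) - (y L - y 0)‖ ≤ 2 * D := by
    calc ‖(x L - x 0) - (y L - y 0)‖ = ‖(x L - y L) - (x 0 - y 0)‖ := by congr 1; abel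
      _ ≤ ‖x L - y L‖ + ‖x 0 - y 0‖ := norm_sub_le _ _
      _ ≤ 2 * D := by linarith
  have hmm : ‖m' - m‖ ^ 2 * L ≤ 4 * D ^ 2 := by
    rw [hm, hm', ← smul_sub, norm_smul, norm_inv, Real.norm_natCast]
    have h2 : ‖(x L - x 0) - (y L - y 0)‖ ^ 2 ≤ (2 * D) ^ 2 := by
      nlinarith [norm_nonneg ((x L - x 0) - (y L - y 0))]
    rw [mul_pow, inv_pow]
    have h4 : ((L : ℝ) ^ 2)⁻¹ * ‖(x L - x 0) - (y L - y 0)‖ ^ 2 * L
        = ‖(x L - x 0) - (y L - y 0)‖ ^ 2 / L := by field_simp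
    rw [h4, div_le_iff₀ (by positivity)]
    nlinarith
  have hx : ‖y L - y 0‖ ^ 2 / L - 4 * D ^ 2 ≤ ‖x L - x 0‖ ^ 2 / L := by
    have := chord_compare hD hd hy
    rw [le_div_iff₀ (by positivity), sub_mul, div_mul_cancel₀ _ (by positivity)]
    nlinarith
  have e1 := sum_sq_sub_mean x L hL
  have e2 := sum_sq_sub_mean y L hL
  rw [← hm'] at e1
  rw [← hm] at e2
  have key : ∀ a, ‖(x (a + 1) - y (a + 1)) - (x a - y a)‖ ^ 2 ≤
      3 * ‖x (a + 1) - x a - m'‖ ^ 2 + 3 * ‖y (a + 1) - y a - m‖ ^ 2 + 3 * ‖m' - m‖ ^ 2 := by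
    intro a
    have e : (x (a + 1) - y (a + 1)) - (x a - y a)
        = (x (a + 1) - x a - m') - (y (a + 1) - y a - m) + (m' - m) := by abel
    rw [e]
    have := (norm_add_le ((x (a + 1) - x a - m') - (y (a + 1) - y a - m)) (m' - m)).trans
      (add_le_add (norm_sub_le _ _) le_rfl)
    have h9 := pow_le_pow_left₀ (norm_nonneg _) this 2
    nlinarith [h9, sq_nonneg (‖x (a + 1) - x a - m'‖ - ‖y (a + 1) - y a - m‖),
      sq_nonneg (‖x (a + 1) - x a - m'‖ - ‖m' - m‖),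
      sq_nonneg (‖y (a + 1) - y a - m‖ - ‖m' - m‖)]
  have := sum_le_sum (s := range L) (fun a _ => key a)
  rw [sum_add_distrib, sum_add_distrib, ← mul_sum, ← mul_sum, sum_const, card_range,
    nsmul_eq_mul, e1, e2] at this
  nlinarith

lemma sum_range_blocks {M : Type*} [AddCommMonoid M] (f : ℕ → M) (K n : ℕ) :
    ∑ a ∈ range (K * n), f a = ∑ k ∈ range K, ∑ u ∈ range n, f (k * n + u) := by
  induction K with
  | zero => simp
  | succ K ih => rw [Nat.succ_mul, sum_range_add, ih, sum_range_succ]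

omit [InnerProductSpace ℝ E] in
lemma window_sq (z : ℕ → E) (o n c c' : ℕ) (h1 : o ≤ c) (h2 : c ≤ o + n) (h3 : o ≤ c')
    (h4 : c' ≤ o + n) :
    ‖z c - z c'‖ ^ 2 ≤ n * ∑ u ∈ range n, ‖z (o + u + 1) - z (o + u)‖ ^ 2 := by
  wlog h : c ≤ c' generalizing c c'
  · rw [norm_sub_rev]; exact this c' c h3 h4 h1 h2 (le_of_not_ge h)
  have e : ‖z c - z c'‖ ≤ ∑ u ∈ range n, ‖z (o + u + 1) - z (o + u)‖ := by
    rw [norm_sub_rev, ← sum_Ico_sub z h]
    refine (norm_sum_le _ _).trans ?_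
    refine (sum_le_sum_of_subset_of_nonneg (t := Ico o (o + n))
      (Ico_subset_Ico h1 h4) (fun _ _ _ => norm_nonneg _)).trans ?_
    rw [sum_Ico_eq_sum_range, Nat.add_sub_cancel_left]
  refine (pow_le_pow_left₀ (norm_nonneg _) e 2).trans ?_
  have := sq_sum_le_card_mul_sum_sq (s := range n)
    (f := fun u => ‖z (o + u + 1) - z (o + u)‖)
  simpa using this

/-- Horizontal energy of `g` on the unit cell with lower left corner `(i, j)`. -/
def hE (g : ℝ → ℝ → E) (i j : ℕ) : ℝ :=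
  ∫ θ in (0 : ℝ)..1, ‖g ((i : ℝ) + 1) (j + θ) - g i (j + θ)‖ ^ 2

/-- Vertical energy. -/
def vE (g : ℝ → ℝ → E) (i j : ℕ) : ℝ := hE (fun x y => g y x) j i

/-- Normalised horizontal energy of `g` on the square of side `L`. -/
def hPar (g : ℝ → ℝ → E) (L : ℕ) : ℝ :=
  ((L : ℝ) ^ 3)⁻¹ * ∫ θ in (0 : ℝ)..1, ∑ j ∈ range L, ‖g L (j + θ) - g 0 (j + θ)‖ ^ 2

/-- Normalised vertical energy. -/
def vPar (g : ℝ → ℝ → E) (L : ℕ) : ℝ := hPar (fun x y => g y x) L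

omit [InnerProductSpace ℝ E] in
lemma hPar_nonneg (g : ℝ → ℝ → E) (L : ℕ) : 0 ≤ hPar g L := by
  apply mul_nonneg (by positivity)
  exact intervalIntegral.integral_nonneg zero_le_one (fun _ _ => by positivity)

omit [InnerProductSpace ℝ E] in
lemma hE_nonneg (g : ℝ → ℝ → E) (i j : ℕ) : 0 ≤ hE g i j :=
  intervalIntegral.integral_nonneg zero_le_one (fun _ _ => by positivity)

/-- `g` is `D`-Lipschitz on the square `[x₀, x₀ + r] × [y₀, y₀ + r]`. -/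
def LipBox (D : ℝ) (g : ℝ → ℝ → E) (x₀ y₀ r : ℝ) : Prop :=
  ∀ x y x' y', x ∈ Set.Icc x₀ (x₀ + r) → y ∈ Set.Icc y₀ (y₀ + r) →
    x' ∈ Set.Icc x₀ (x₀ + r) → y' ∈ Set.Icc y₀ (y₀ + r) →
    ‖g x y - g x' y'‖ ≤ D * (|x - x'| + |y - y'|)

omit [InnerProductSpace ℝ E] in
lemma LipBox.swap {D x₀ y₀ r : ℝ} {g : ℝ → ℝ → E} (h : LipBox D g x₀ y₀ r) :
    LipBox D (fun x y => g y x) y₀ x₀ r := by
  intro x y x' y' hx hy hx' hy'
  rw [add_comm |x - x'|]
  exact h y x y' x' hy hx hy' hx'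

omit [InnerProductSpace ℝ E] in
lemma LipBox.mono {D x₀ y₀ r x₁ y₁ r₁ : ℝ} {g : ℝ → ℝ → E} (h : LipBox D g x₀ y₀ r)
    (a : x₀ ≤ x₁) (b : x₁ + r₁ ≤ x₀ + r) (c : y₀ ≤ y₁) (d : y₁ + r₁ ≤ y₀ + r) :
    LipBox D g x₁ y₁ r₁ := fun x y x' y' hx hy hx' hy' =>
  h x y x' y' ⟨a.trans hx.1, hx.2.trans b⟩ ⟨c.trans hy.1, hy.2.trans d⟩
    ⟨a.trans hx'.1, hx'.2.trans b⟩ ⟨c.trans hy'.1, hy'.2.trans d⟩

omit [InnerProductSpace ℝ E] in
lemma LipBox.continuousOn_line {D x₀ y₀ r : ℝ} {g : ℝ → ℝ → E} (hD : 0 ≤ D)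
    (h : LipBox D g x₀ y₀ r) {x b : ℝ} (hx : x ∈ Set.Icc x₀ (x₀ + r))
    (hb : y₀ ≤ b) (hb' : b + 1 ≤ y₀ + r) :
    ContinuousOn (fun θ => g x (b + θ)) (Set.Icc 0 1) := by
  refine (LipschitzOnWith.of_dist_le_mul (K := D.toNNReal) ?_).continuousOn
  intro s hs t ht
  rw [dist_eq_norm, Real.dist_eq, Real.coe_toNNReal D hD]
  have := h x (b + s) x (b + t) hx ⟨by linarith [hs.1], by linarith [hs.2]⟩ hx
    ⟨by linarith [ht.1], by linarith [ht.2]⟩
  simpa using this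

omit [InnerProductSpace ℝ E] in
lemma intervalIntegrable_sq_sub {u v : ℝ → E} (hu : ContinuousOn u (Set.Icc 0 1))
    (hv : ContinuousOn v (Set.Icc 0 1)) :
    IntervalIntegrable (fun θ => ‖u θ - v θ‖ ^ 2) MeasureTheory.volume 0 1 :=
  (((hu.sub hv).norm).pow 2).intervalIntegrable_of_Icc zero_le_one

omit [InnerProductSpace ℝ E] in
lemma hE_le_sq {D : ℝ} {g : ℝ → ℝ → E} (hD : 0 ≤ D) {i j : ℕ} (h : LipBox D g i j 1) :
    hE g i j ≤ D ^ 2 := by
  have hc1 := h.continuousOn_line hD (x := (i : ℝ) + 1) (b := j) ⟨by linarith, le_rfl⟩ le_rfl le_rfl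
  have hc0 := h.continuousOn_line hD (x := (i : ℝ)) (b := j) ⟨le_rfl, by linarith⟩ le_rfl le_rfl
  calc hE g i j ≤ ∫ _θ in (0 : ℝ)..1, D ^ 2 := by
        refine intervalIntegral.integral_mono_on zero_le_one (intervalIntegrable_sq_sub hc1 hc0)
          intervalIntegrable_const (fun θ hθ => ?_)
        refine pow_le_pow_left₀ (norm_nonneg _) ?_ 2
        refine (h _ _ _ _ ⟨by linarith, le_rfl⟩ ⟨by linarith [hθ.1], by linarith [hθ.2]⟩
          ⟨le_rfl, by linarith⟩ ⟨by linarith [hθ.1], by linarith [hθ.2]⟩).trans ?_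
        simp
    _ = D ^ 2 := by simp

omit [InnerProductSpace ℝ E] in
lemma vE_le_sq {D : ℝ} {g : ℝ → ℝ → E} (hD : 0 ≤ D) {i j : ℕ} (h : LipBox D g i j 1) :
    vE g i j ≤ D ^ 2 :=
  hE_le_sq hD h.swap

/-- Subdivision: the children of a square have at least its energy on average. -/
lemma sum_hE_ge (g : ℝ → ℝ → E) (L : ℕ) (hL : 0 < L) {D : ℝ} (hD : 0 ≤ D)
    (h : LipBox D g 0 0 L) :
    (L : ℝ) ^ 2 * hPar g L ≤ ∑ i ∈ range L, ∑ j ∈ range L, hE g i j := by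
  have hLR : (0 : ℝ) < L := by exact_mod_cast hL
  have hc : ∀ i : ℕ, i ≤ L → ∀ j ∈ range L,
      ContinuousOn (fun θ => g i (j + θ)) (Set.Icc 0 1) := by
    intro i hi j hj
    refine h.continuousOn_line hD ⟨by positivity, by simpa using hi⟩ (by positivity) ?_
    have : j + 1 ≤ L := Finset.mem_range.1 hj
    simpa using (show ((j + 1 : ℕ) : ℝ) ≤ (L : ℝ) by exact_mod_cast this)
  have hint : ∀ j ∈ range L, ∀ i ∈ range L,
      IntervalIntegrable (fun θ => ‖g ((i : ℝ) + 1) (j + θ) - g i (j + θ)‖ ^ 2)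
        MeasureTheory.volume 0 1 := by
    intro j hj i hi
    have hi' := Finset.mem_range.1 hi
    have h1 := hc (i + 1) hi' j hj
    rw [Nat.cast_add, Nat.cast_one] at h1
    exact intervalIntegrable_sq_sub h1 (hc i hi'.le j hj)
  rw [sum_comm]
  simp only [hE, hPar]
  have hint' : ∀ j ∈ range L, IntervalIntegrable (fun θ => ∑ i ∈ range L,
      ‖g ((i : ℝ) + 1) (j + θ) - g i (j + θ)‖ ^ 2) MeasureTheory.volume 0 1 := fun j hj => by
    simpa only [Finset.sum_fn] using IntervalIntegrable.sum _ (hint j hj)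
  rw [sum_congr rfl (fun j hj => (intervalIntegral.integral_finsetSum (hint j hj)).symm),
    ← intervalIntegral.integral_finsetSum hint', ← mul_assoc,
    ← intervalIntegral.integral_const_mul]
  refine intervalIntegral.integral_mono_on zero_le_one ?_
    (by simpa only [Finset.sum_fn] using IntervalIntegrable.sum _ hint') (fun θ _ => ?_)
  · apply IntervalIntegrable.const_mul
    have hi : ∀ j ∈ range L, IntervalIntegrable (fun θ => ‖g L (j + θ) - g 0 (j + θ)‖ ^ 2)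
        MeasureTheory.volume 0 1 := fun j hj => by
      have h0 := hc 0 (Nat.zero_le _) j hj
      rw [Nat.cast_zero] at h0
      exact intervalIntegrable_sq_sub (hc L le_rfl j hj) h0
    simpa only [Finset.sum_fn] using IntervalIntegrable.sum _ hi
  · rw [mul_sum]
    refine sum_le_sum (fun j _ => ?_)
    have := chord_sq_le (fun i : ℕ => g i (j + θ)) L
    simp only [Nat.cast_add, Nat.cast_one, Nat.cast_zero] at this
    refine le_of_eq_of_le ?_ this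
    field_simp

end Vale.Agent.P208
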