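import Vale.Agent.P208.Strip

/-!
The gadget: a square cut into unit cells with row and column lifts cannot keep all energies
almost constant.
-/

noncomputable section

open Finset

namespace Vale.Agent.P208

/-- Number of cells in each side of the gadget with `N` labels and column width `W`. -/
def gL (N W : ℕ) : ℕ := N * W * (W * W + 1)

/-- Label `l` is available at cell `(a, b)`. -/
def Avail (N W l a b : ℕ) : Prop := b % N = l ∨ (a / W) % N = l

lemma gL_pos {N W : ℕ} (hN : 0 < N) (hW : 0 < W) : 0 < gL N W := by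
  unfold gL; positivity

variable {E : Type*} [NormedAddCommGroup E] [InnerProductSpace ℝ E]

/-- Geometric hypotheses of the gadget. -/
structure GadgetData (N W : ℕ) (D : ℝ) (g : ℝ → ℝ → E) (φ : ℕ → ℝ → ℝ → E) : Prop where
  hN : 0 < N
  hW : 0 < W
  hD : 1 ≤ D
  lipg : LipBox D g 0 0 (gL N W)
  lipφ : ∀ l a b, a < gL N W → b < gL N W → Avail N W l a b → LipBox D (φ l) a b 1
  near : ∀ l a b, a < gL N W → b < gL N W → Avail N W l a b →
    ∀ x ∈ Set.Icc (a : ℝ) (a + 1), ∀ y ∈ Set.Icc (b : ℝ) (b + 1), ‖φ l x y - g x y‖ ≤ D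
  sep : ∀ l l' a b, a < gL N W → b < gL N W → Avail N W l a b → Avail N W l' a b → l ≠ l' →
    1 ≤ ‖φ l a b - φ l' a b‖

variable {N W : ℕ} {D : ℝ} {g : ℝ → ℝ → E} {φ : ℕ → ℝ → ℝ → E}

omit [InnerProductSpace ℝ E] in
lemma GadgetData.rows (h : GadgetData N W D g φ) :
    StripData D (gL N W) g (fun b => φ (b % N)) :=
  ⟨by linarith [h.hD], h.lipg, fun a b ha hb => h.lipφ _ a b ha hb (Or.inl rfl),
    fun a b ha hb => h.near _ a b ha hb (Or.inl rfl)⟩

omit [InnerProductSpace ℝ E] in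
lemma GadgetData.cols (h : GadgetData N W D g φ) :
    StripData D (gL N W) (fun x y => g y x) (fun a x y => φ ((a / W) % N) y x) :=
  ⟨by linarith [h.hD], h.lipg.swap, fun a b ha hb => (h.lipφ _ b a hb ha (Or.inr rfl)).swap,
    fun a b ha hb x hx y hy => h.near _ b a hb ha (Or.inr rfl) y hy x hx⟩

omit [InnerProductSpace ℝ E] in
lemma label_block {N W k u : ℕ} (hW : 0 < W) (hu : u < W) :
    ((k * W + u) / W) % N = k % N := by
  rw [mul_comm k W, Nat.mul_add_div hW, Nat.div_eq_of_lt hu, add_zero]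

/-- Lifted column strips keep the horizontal energy of the base up to `O(1/W)`. -/
lemma col_hE_ge (h : GadgetData N W D g φ) :
    (gL N W : ℝ) ^ 2 * hPar g (gL N W) - 4 * D ^ 2 * (gL N W : ℝ) ^ 2 / W
      ≤ ∑ b ∈ range (gL N W), ∑ a ∈ range (gL N W), hE (φ ((a / W) % N)) a b := by
  set L := gL N W with hLdef
  have hL : 0 < L := gL_pos h.hN h.hW
  have hD0 : 0 ≤ D := by linarith [h.hD]
  have hR := h.rows
  have hWR : (0 : ℝ) < W := by exact_mod_cast h.hW
  have hcont : ∀ b ∈ range L, ∀ a ∈ range L, IntervalIntegrable (fun θ =>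
      ‖φ ((a / W) % N) ((a : ℝ) + 1) (b + θ) - φ ((a / W) % N) a (b + θ)‖ ^ 2)
        MeasureTheory.volume 0 1 := by
    intro b hb a ha
    have l := h.lipφ _ a b (Finset.mem_range.1 ha) (Finset.mem_range.1 hb)
      (Or.inr (rfl : (a / W) % N = _))
    exact intervalIntegrable_sq_sub
      (l.continuousOn_line hD0 ⟨by linarith, le_rfl⟩ le_rfl le_rfl)
      (l.continuousOn_line hD0 ⟨le_rfl, by linarith⟩ le_rfl le_rfl)
  have e : ∑ b ∈ range L, ∑ a ∈ range L, hE (φ ((a / W) % N)) a b = ∫ θ in (0 : ℝ)..1,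
      ∑ b ∈ range L, ∑ a ∈ range L,
        ‖φ ((a / W) % N) ((a : ℝ) + 1) (b + θ) - φ ((a / W) % N) a (b + θ)‖ ^ 2 := by
    rw [intervalIntegral.integral_finsetSum (fun b hb => intervalIntegrable_sum (hcont b hb))]
    exact sum_congr rfl fun b hb => (intervalIntegral.integral_finsetSum (hcont b hb)).symm
  have e' : 4 * D ^ 2 * (L : ℝ) ^ 2 / W = ∫ _θ in (0 : ℝ)..1, 4 * D ^ 2 * (L : ℝ) ^ 2 / W := by
    simp
  have ic := intervalIntegrable_sum (s := range L)
    (F := fun b θ => ‖g L (b + θ) - g 0 (b + θ)‖ ^ 2 / L)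
    (fun b hb => (hR.ic (Finset.mem_range.1 hb)).div_const _)
  rw [e, e', ← integral_chord hR hL,
    ← intervalIntegral.integral_sub ic intervalIntegrable_const]
  refine intervalIntegral.integral_mono_on zero_le_one (ic.sub intervalIntegrable_const)
    (intervalIntegrable_sum (fun b hb => intervalIntegrable_sum (hcont b hb))) (fun θ hθ => ?_)
  have : 4 * D ^ 2 * (L : ℝ) ^ 2 / W = ∑ _b ∈ range L, 4 * D ^ 2 * L / W := by
    simp; ring
  rw [this, ← sum_sub_distrib]
  refine sum_le_sum (fun b hb => ?_)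
  have hb' := Finset.mem_range.1 hb
  obtain ⟨K, hK0, hK⟩ : ∃ K, 0 < K ∧ L = K * W := by
    refine ⟨N * (W * W + 1), ?_, ?_⟩
    · have := h.hN; positivity
    · rw [hLdef, gL]; ring
  rw [congrArg range hK, sum_range_blocks]
  let Y : ℕ → E := fun k => g (k * W : ℕ) (b + θ)
  have key : ∀ k ∈ range K, ‖Y (k + 1) - Y k‖ ^ 2 / W - 4 * D ^ 2 ≤ ∑ u ∈ range W,
      ‖φ (((k * W + u) / W) % N) (((k * W + u : ℕ) : ℝ) + 1) (b + θ)
        - φ (((k * W + u) / W) % N) (k * W + u : ℕ) (b + θ)‖ ^ 2 := by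
    intro k hk
    have hk' := Finset.mem_range.1 hk
    have hbound : ∀ u, u < W → k * W + u < L := by
      intro u hu
      rw [hK]
      calc k * W + u < k * W + W := by omega
        _ = (k + 1) * W := by ring
        _ ≤ K * W := Nat.mul_le_mul_right _ hk'
    have hc := chord_sq_le (fun u : ℕ => φ (k % N) (k * W + u : ℕ) (b + θ)) W
    refine le_trans ?_ (hc.trans (le_of_eq ?_))
    · have hy : (b : ℝ) + θ ∈ Set.Icc (b : ℝ) (b + 1) :=
        ⟨by linarith [hθ.1], by linarith [hθ.2]⟩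
      have n0 := h.near (k % N) (k * W) b (hbound 0 h.hW) hb'
        (Or.inr (by simpa using label_block (N := N) (k := k) h.hW h.hW))
        (k * W : ℕ) ⟨le_rfl, by linarith⟩ _ hy
      have hm : W - 1 < W := by have := h.hW; omega
      have hsum : k * W + (W - 1) + 1 = (k + 1) * W := by
        rw [Nat.succ_mul]; omega
      have n1 := h.near (k % N) (k * W + (W - 1)) b (hbound _ hm) hb'
        (Or.inr (label_block h.hW hm)) ((k + 1) * W : ℕ)
        (by rw [← hsum]; exact ⟨by push_cast; linarith, by push_cast; linarith⟩) _ hy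
      have hq := hR.chord_le hb' hθ (x := k * W) (x' := (k + 1) * W)
        (Nat.mul_le_mul_right _ (Nat.le_succ k)) (by rw [← hLdef, hK]; exact Nat.mul_le_mul_right _ hk')
      have hd : ‖(φ (k % N) ((k + 1) * W : ℕ) (b + θ) - φ (k % N) (k * W : ℕ) (b + θ))
          - (Y (k + 1) - Y k)‖ ≤ 2 * D := by
        calc _ = ‖(φ (k % N) ((k + 1) * W : ℕ) (b + θ) - g ((k + 1) * W : ℕ) (b + θ))
              - (φ (k % N) (k * W : ℕ) (b + θ) - g (k * W : ℕ) (b + θ))‖ := by
              congr 1; simp only [Y]; abel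
          _ ≤ _ := (norm_sub_le _ _).trans (by linarith)
      have := chord_compare hD0 hd (m := D * W) (by
        refine hq.trans (le_of_eq ?_)
        push_cast; ring)
      rw [add_zero, show k * W + W = (k + 1) * W by ring, le_div_iff₀ hWR, sub_mul,
        div_mul_cancel₀ _ hWR.ne']
      linarith
    · refine sum_congr rfl fun u hu => ?_
      rw [label_block h.hW (Finset.mem_range.1 hu)]
      push_cast
      ring_nf
  refine le_trans ?_ (sum_le_sum key)
  rw [sum_sub_distrib, ← sum_div, sum_const, card_range, nsmul_eq_mul]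
  have hc := chord_sq_le Y K
  rw [div_le_iff₀ (by exact_mod_cast hK0)] at hc
  have hYK : ‖g L (b + θ) - g 0 (b + θ)‖ = ‖Y K - Y 0‖ := by
    simp only [Y, zero_mul, Nat.cast_zero, ← hK]
  have hLK : (L : ℝ) = K * W := by exact_mod_cast hK
  rw [hYK, hLK]
  have hKR : (0 : ℝ) < K := by exact_mod_cast hK0
  have h1 : ‖Y K - Y 0‖ ^ 2 / (K * W) ≤ (∑ k ∈ range K, ‖Y (k + 1) - Y k‖ ^ 2) / W := by
    rw [div_le_div_iff₀ (by positivity) hWR]
    nlinarith
  have h2 : 4 * D ^ 2 * ((K : ℝ) * W) / W = K * (4 * D ^ 2) := by field_simp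
  linarith

omit [InnerProductSpace ℝ E] in
lemma sum_cells_le {ι : Type*} (s : Finset ι) (hh vv : ι → ℝ) (H V ε η D c : ℝ)
    (hε : 0 < ε) (hη : 0 ≤ η) (hV : 0 ≤ V + c)
    (hA : ∀ i ∈ s, hh i ≤ H + η) (hv : ∀ i ∈ s, vv i ≤ D ^ 2)
    (hB : ∀ i ∈ s, H - ε ≤ hh i → vv i ≤ V + c) :
    ∑ i ∈ s, vv i ≤ s.card * (V + c) + D ^ 2 / ε * (s.card * (H + η) - ∑ i ∈ s, hh i) := by
  have : ∀ i ∈ s, vv i ≤ (V + c) + D ^ 2 / ε * (H + η - hh i) := by
    intro i hi
    have h0 : 0 ≤ H + η - hh i := by linarith [hA i hi]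
    by_cases hg : H - ε ≤ hh i
    · linarith [hB i hi hg, mul_nonneg (div_nonneg (sq_nonneg D) hε.le) h0]
    · have h1 : ε ≤ H + η - hh i := by linarith
      have : D ^ 2 ≤ D ^ 2 / ε * (H + η - hh i) := by
        rw [div_mul_eq_mul_div, le_div_iff₀ hε]
        exact mul_le_mul_of_nonneg_left h1 (sq_nonneg D)
      linarith [hv i hi]
  refine (sum_le_sum this).trans (le_of_eq ?_)
  rw [sum_add_distrib, ← mul_sum, sum_sub_distrib, sum_const, sum_const, nsmul_eq_mul,
    nsmul_eq_mul]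

end Vale.Agent.P208
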