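import Vale.Agent.P208.Doubling

/-!
No bi-Lipschitz map of the set into a finite dimensional inner product space.
-/

noncomputable section

open Finset

namespace Vale.Agent.P208

variable {H : Type*} [NormedAddCommGroup H] [InnerProductSpace ℝ H] {e : ℕ → H}
variable {E : Type*} [NormedAddCommGroup E] [InnerProductSpace ℝ E]

/-- Rescaled map on the sheet with offset `z` at level `t`. -/
def scaled (e : ℕ → H) (F : H → E) (t : ℕ) (z : H) (x y : ℝ) : E :=
  (side t)⁻¹ • F (pt e (x * side t) (y * side t) z)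

omit [InnerProductSpace ℝ E] in
lemma dist_pt_plane (he : Orthonormal ℝ e) (x y x' y' : ℝ) (z : H) :
    dist (pt e x y z) (pt e x' y' z) ≤ |x - x'| + |y - y'| := by
  rw [dist_eq_norm, show pt e x y z - pt e x' y' z = (x - x') • e 0 + (y - y') • e 1 by
    simp only [pt, sub_smul]; abel]
  refine (norm_add_le _ _).trans (le_of_eq ?_)
  simp [norm_smul, he.norm_eq_one]

omit [InnerProductSpace ℝ E] in
lemma pt_mem {t a b : ℕ} {z : H} (h : Sheet e t a b z) {x y : ℝ}
    (hx : x ∈ Set.Icc (a : ℝ) (a + 1)) (hy : y ∈ Set.Icc (b : ℝ) (b + 1)) :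
    pt e (x * side t) (y * side t) z ∈ bigSet e :=
  ⟨t, a, b, z, h, _, ⟨mul_le_mul_of_nonneg_right hx.1 (side_pos t).le,
      mul_le_mul_of_nonneg_right hx.2 (side_pos t).le⟩, _,
    ⟨mul_le_mul_of_nonneg_right hy.1 (side_pos t).le,
      mul_le_mul_of_nonneg_right hy.2 (side_pos t).le⟩, rfl⟩

omit [InnerProductSpace ℝ E] in
lemma sheet_child {t a b : ℕ} {z : H} (h : Sheet e t a b z) {i j : ℕ} (hi : i < schL t)
    (hj : j < schL t) (o : Option ℕ)
    (ho : ∀ l, o = some l → Avail (schN t) (schW t) l (a * schL t + i) (b * schL t + j)) :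
    Sheet e (t + 1) (a * schL t + i) (b * schL t + j) (z + vec e t o) := by
  have d : ∀ c k, k < schL t → (c * schL t + k) / schL t = c := fun c k hk => by
    rw [mul_comm, Nat.mul_add_div (schL_pos t), Nat.div_eq_of_lt hk, add_zero]
  exact ⟨z, o, by rw [d a i hi, d b j hj]; exact h, ho, rfl⟩

lemma avail_shift (t a b i j l : ℕ) :
    Avail (schN t) (schW t) l (a * schL t + i) (b * schL t + j)
      ↔ Avail (schN t) (schW t) l i j := by
  have e1 : (b * schL t + j) % schN t = j % schN t := by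
    rw [schL, gL, show b * (schN t * schW t * (schW t * schW t + 1)) + j
      = schN t * (b * schW t * (schW t * schW t + 1)) + j by ring, Nat.mul_add_mod]
  have e2 : ((a * schL t + i) / schW t) % schN t = (i / schW t) % schN t := by
    rw [schL, gL, show a * (schN t * schW t * (schW t * schW t + 1)) + i
      = schW t * (schN t * (a * (schW t * schW t + 1))) + i by ring,
      Nat.mul_add_div (schW_pos t), Nat.mul_add_mod]
  unfold Avail
  rw [e1, e2]

/-- A normalised bi-Lipschitz map on the set. -/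
structure BiLip (e : ℕ → H) (F : H → E) (D : ℝ) : Prop where
  he : Orthonormal ℝ e
  hD : 1 ≤ D
  upper : ∀ p ∈ bigSet e, ∀ q ∈ bigSet e, ‖F p - F q‖ ≤ D * dist p q
  lower : ∀ p ∈ bigSet e, ∀ q ∈ bigSet e, dist p q ≤ ‖F p - F q‖

variable {F : H → E} {D : ℝ}

lemma scaled_lip (h : BiLip e F D) {t a b : ℕ} {z : H} (hS : Sheet e t a b z) :
    LipBox D (scaled e F t z) a b 1 := by
  intro x y x' y' hx hy hx' hy'
  have hs := side_pos t
  simp only [scaled, ← smul_sub, norm_smul, norm_inv, Real.norm_of_nonneg hs.le]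
  have h1 := (h.upper _ (pt_mem hS hx hy) _ (pt_mem hS hx' hy')).trans
    (mul_le_mul_of_nonneg_left (dist_pt_plane h.he _ _ _ _ _) (by linarith [h.hD]))
  rw [← sub_mul, ← sub_mul, abs_mul, abs_mul, abs_of_pos hs, ← add_mul] at h1
  rw [inv_mul_le_iff₀ hs]
  linarith

/-- Children's coordinates. -/
def shifted (e : ℕ → H) (F : H → E) (t a b : ℕ) (z : H) (x y : ℝ) : E :=
  scaled e F (t + 1) z (((a * schL t : ℕ) : ℝ) + x) (((b * schL t : ℕ) : ℝ) + y)

lemma shifted_hE (t a b : ℕ) (z : H) (i j : ℕ) :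
    hE (shifted e F t a b z) i j
      = hE (scaled e F (t + 1) z) (a * schL t + i) (b * schL t + j) := by
  simp only [hE, shifted, Nat.cast_add, add_assoc]

lemma shifted_vE (t a b : ℕ) (z : H) (i j : ℕ) :
    vE (shifted e F t a b z) i j
      = vE (scaled e F (t + 1) z) (a * schL t + i) (b * schL t + j) := by
  simp only [vE, hE, shifted, Nat.cast_add, add_assoc]

lemma shifted_lip (h : BiLip e F D) {t a b : ℕ} {z : H} (hS : Sheet e t a b z) :
    LipBox D (shifted e F t a b z) 0 0 (schL t) := by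
  intro x y x' y' hx hy hx' hy'
  have hL : (0 : ℝ) < schL t := by exact_mod_cast schL_pos t
  have hs := side_pos (t + 1)
  have mem : ∀ x y, x ∈ Set.Icc (0 : ℝ) (0 + schL t) → y ∈ Set.Icc (0 : ℝ) (0 + schL t) →
      pt e ((((a * schL t : ℕ) : ℝ) + x) * side (t + 1))
        ((((b * schL t : ℕ) : ℝ) + y) * side (t + 1)) z ∈ bigSet e := by
    intro x y hx hy
    have key : ∀ (c : ℕ) (u : ℝ), u ∈ Set.Icc (0 : ℝ) (0 + schL t) →
        (c : ℝ) + u / schL t ∈ Set.Icc (c : ℝ) (c + 1) := fun c u hu =>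
      ⟨by linarith [div_nonneg hu.1 hL.le],
        by have := (div_le_one hL).2 (by linarith [hu.2] : u ≤ schL t); linarith⟩
    have e1 : ∀ (c : ℕ) (u : ℝ), (((c * schL t : ℕ) : ℝ) + u) * side (t + 1)
        = ((c : ℝ) + u / schL t) * side t := fun c u => by
      rw [← side_succ_mul t]; push_cast; field_simp
    rw [e1, e1]
    exact pt_mem hS (key a x hx) (key b y hy)
  simp only [shifted, scaled, ← smul_sub, norm_smul, norm_inv, Real.norm_of_nonneg hs.le]
  have h1 := (h.upper _ (mem x y hx hy) _ (mem x' y' hx' hy')).trans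
    (mul_le_mul_of_nonneg_left (dist_pt_plane h.he _ _ _ _ _) (by linarith [h.hD]))
  rw [← sub_mul, ← sub_mul, abs_mul, abs_mul, abs_of_pos hs, add_sub_add_left_eq_sub,
    add_sub_add_left_eq_sub, ← add_mul] at h1
  rw [inv_mul_le_iff₀ hs]
  linarith

lemma hE_refine {D : ℝ} (hD : 0 ≤ D) (Q G : ℝ → ℝ → E) (a b L : ℕ) (hL : 0 < L)
    (hG : LipBox D G 0 0 L)
    (rel : ∀ x y : ℝ, Q (a + x) (b + y) = (L : ℝ)⁻¹ • G (L * x) (L * y)) :
    hE Q a b = hPar G L := by
  have hLR : (0 : ℝ) < L := by exact_mod_cast hL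
  let S : ℝ → ℝ := fun y => ‖G L y - G 0 y‖ ^ 2
  have e1 : hE Q a b = ((L : ℝ) ^ 2)⁻¹ * ∫ θ in (0 : ℝ)..1, S (L * θ) := by
    rw [← intervalIntegral.integral_const_mul]
    refine intervalIntegral.integral_congr (fun θ _ => ?_)
    have r1 := rel 1 θ
    have r0 := rel 0 θ
    rw [mul_one] at r1
    rw [mul_zero, add_zero] at r0
    simp only [S, r1, r0, ← smul_sub, norm_smul, norm_inv, Real.norm_natCast, mul_pow, inv_pow]
  have hc : ∀ j ∈ range L, ContinuousOn (fun θ => G L (j + θ)) (Set.Icc 0 1) ∧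
      ContinuousOn (fun θ => G 0 (j + θ)) (Set.Icc 0 1) := by
    intro j hj
    have hj' : (j : ℝ) + 1 ≤ L := cast_succ_le (Finset.mem_range.1 hj)
    exact ⟨hG.continuousOn_line hD ⟨by linarith, by simp⟩ (by positivity) (by simpa using hj'),
      hG.continuousOn_line hD ⟨le_rfl, by linarith⟩ (by positivity) (by simpa using hj')⟩
  have hi : ∀ j ∈ range L, IntervalIntegrable S MeasureTheory.volume (j : ℝ) ((j + 1 : ℕ) : ℝ) := by
    intro j hj
    refine ContinuousOn.intervalIntegrable_of_Icc (by push_cast; linarith) ?_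
    have hj' : (j : ℝ) + 1 ≤ L := cast_succ_le (Finset.mem_range.1 hj)
    have c1 : ContinuousOn (fun y => G L y) (Set.Icc (0 : ℝ) L) := by
      refine (LipschitzOnWith.of_dist_le_mul (K := D.toNNReal) ?_).continuousOn
      intro u hu v hv
      rw [dist_eq_norm, Real.dist_eq, Real.coe_toNNReal D hD]
      simpa using hG L u L v ⟨by linarith, by simp⟩ ⟨hu.1, by simpa using hu.2⟩
        ⟨by linarith, by simp⟩ ⟨hv.1, by simpa using hv.2⟩
    have c0 : ContinuousOn (fun y => G 0 y) (Set.Icc (0 : ℝ) L) := by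
      refine (LipschitzOnWith.of_dist_le_mul (K := D.toNNReal) ?_).continuousOn
      intro u hu v hv
      rw [dist_eq_norm, Real.dist_eq, Real.coe_toNNReal D hD]
      simpa using hG 0 u 0 v ⟨le_rfl, by linarith⟩ ⟨hu.1, by simpa using hu.2⟩
        ⟨le_rfl, by linarith⟩ ⟨hv.1, by simpa using hv.2⟩
    refine (((c1.sub c0).norm).pow 2).mono ?_
    exact Set.Icc_subset_Icc (by positivity) (by push_cast; linarith)
  rw [e1, intervalIntegral.integral_comp_mul_left S hLR.ne', mul_zero, mul_one, smul_eq_mul, hPar]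
  have e2 : ∫ y in (0 : ℝ)..L, S y
      = ∫ θ in (0 : ℝ)..1, ∑ j ∈ range L, ‖G L (j + θ) - G 0 (j + θ)‖ ^ 2 := by
    rw [intervalIntegral.integral_finsetSum
      (fun j hj => intervalIntegrable_sq_sub (hc j hj).1 (hc j hj).2)]
    have := intervalIntegral.sum_integral_adjacent_intervals (a := fun k : ℕ => (k : ℝ)) (n := L)
      (f := S) (μ := MeasureTheory.volume) (fun k hk => hi k (Finset.mem_range.2 hk))
    simp only [Nat.cast_zero] at this
    rw [← this]
    refine sum_congr rfl fun j _ => ?_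
    rw [intervalIntegral.integral_comp_add_left (fun y => ‖G L y - G 0 y‖ ^ 2) (j : ℝ), add_zero,
      Nat.cast_add, Nat.cast_one]
  rw [e2]
  field_simp

lemma parent_hE (h : BiLip e F D) {t a b : ℕ} {z : H} (hS : Sheet e t a b z) :
    hE (scaled e F t z) a b = hPar (shifted e F t a b z) (schL t) ∧
    vE (scaled e F t z) a b = vPar (shifted e F t a b z) (schL t) := by
  have hD : 0 ≤ D := by linarith [h.hD]
  have rel : ∀ x y : ℝ, scaled e F t z (a + x) (b + y)
      = (schL t : ℝ)⁻¹ • shifted e F t a b z (schL t * x) (schL t * y) := by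
    intro x y
    have hL : (schL t : ℝ) ≠ 0 := by exact_mod_cast (schL_pos t).ne'
    simp only [scaled, shifted, smul_smul, ← mul_inv, Nat.cast_mul]
    rw [← side_succ_mul t]
    congr 2 <;> ring_nf
  exact ⟨hE_refine hD _ _ a b _ (schL_pos t) (shifted_lip h hS) rel,
    hE_refine hD _ (fun x y => shifted e F t a b z y x) b a _ (schL_pos t)
      (shifted_lip h hS).swap (fun x y => rel y x)⟩

lemma gadgetData_sheet (h : BiLip e F D) {t a b : ℕ} {z : H} (hS : Sheet e t a b z) :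
    GadgetData (schN t) (schW t) D (shifted e F t a b z)
      (fun l => shifted e F t a b (z + vec e t (some l))) := by
  have hs := side_pos (t + 1)
  have child : ∀ l i j, i < schL t → j < schL t → Avail (schN t) (schW t) l i j →
      Sheet e (t + 1) (a * schL t + i) (b * schL t + j) (z + vec e t (some l)) := by
    intro l i j hi hj hl
    refine sheet_child hS hi hj _ (fun l' hl' => ?_)
    rw [avail_shift]
    exact Option.some.inj hl' ▸ hl
  have base : ∀ i j, i < schL t → j < schL t →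
      Sheet e (t + 1) (a * schL t + i) (b * schL t + j) z := by
    intro i j hi hj
    simpa [vec] using sheet_child hS hi hj none (fun _ hl => by simp at hl)
  have mem : ∀ {i j : ℕ} {w : H}, Sheet e (t + 1) (a * schL t + i) (b * schL t + j) w →
      ∀ {x y : ℝ}, x ∈ Set.Icc (i : ℝ) (i + 1) → y ∈ Set.Icc (j : ℝ) (j + 1) →
      pt e ((((a * schL t : ℕ) : ℝ) + x) * side (t + 1))
        ((((b * schL t : ℕ) : ℝ) + y) * side (t + 1)) w ∈ bigSet e := by
    intro i j w hw x y hx hy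
    refine pt_mem hw ?_ ?_
    · rw [Nat.cast_add]; exact ⟨by linarith [hx.1], by linarith [hx.2]⟩
    · rw [Nat.cast_add]; exact ⟨by linarith [hy.1], by linarith [hy.2]⟩
  refine ⟨schN_pos t, schW_pos t, h.hD, shifted_lip h hS, ?_, ?_, ?_⟩
  · intro l i j hi hj hl x y x' y' hx hy hx' hy'
    have := scaled_lip h (child l i j hi hj hl)
      (((a * schL t : ℕ) : ℝ) + x) (((b * schL t : ℕ) : ℝ) + y)
      (((a * schL t : ℕ) : ℝ) + x') (((b * schL t : ℕ) : ℝ) + y')
      (by rw [Nat.cast_add]; exact ⟨by linarith [hx.1], by linarith [hx.2]⟩)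
      (by rw [Nat.cast_add]; exact ⟨by linarith [hy.1], by linarith [hy.2]⟩)
      (by rw [Nat.cast_add]; exact ⟨by linarith [hx'.1], by linarith [hx'.2]⟩)
      (by rw [Nat.cast_add]; exact ⟨by linarith [hy'.1], by linarith [hy'.2]⟩)
    simpa [shifted] using this
  · intro l i j hi hj hl x hx y hy
    simp only [shifted, scaled, ← smul_sub, norm_smul, norm_inv, Real.norm_of_nonneg hs.le]
    rw [inv_mul_le_iff₀ hs]
    refine (h.upper _ (mem (child l i j hi hj hl) hx hy) _ (mem (base i j hi hj) hx hy)).trans ?_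
    rw [dist_eq_norm]
    simp [pt, vec, norm_smul, h.he.norm_eq_one, abs_of_pos hs, mul_comm]
  · intro l l' i j hi hj hl hl' hne
    simp only [shifted, scaled, ← smul_sub, norm_smul, norm_inv, Real.norm_of_nonneg hs.le]
    rw [le_inv_mul_iff₀ hs, mul_one]
    refine le_trans ?_ (h.lower _ (mem (child l i j hi hj hl) ⟨le_rfl, by linarith⟩
      ⟨le_rfl, by linarith⟩) _ (mem (child l' i j hi hj hl') ⟨le_rfl, by linarith⟩
      ⟨le_rfl, by linarith⟩))
    rw [dist_eq_norm]
    have hon := orthonormal_iff_ite.1 h.he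
    have hne' : Nat.pair t l + 2 ≠ Nat.pair t l' + 2 := fun h' =>
      hne (Nat.pair_eq_pair.1 (Nat.add_right_cancel h')).2
    set d := pt e ((((a * schL t : ℕ) : ℝ) + i) * side (t + 1))
        ((((b * schL t : ℕ) : ℝ) + j) * side (t + 1)) (z + vec e t (some l))
      - pt e ((((a * schL t : ℕ) : ℝ) + i) * side (t + 1))
        ((((b * schL t : ℕ) : ℝ) + j) * side (t + 1)) (z + vec e t (some l')) with hd
    have hcs := abs_real_inner_le_norm (e (Nat.pair t l + 2)) d
    rw [h.he.norm_eq_one, one_mul] at hcs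
    refine le_trans (le_of_eq ?_) hcs
    simp [hd, pt, vec, inner_sub_right, inner_add_right, real_inner_smul_right, hon, hne',
      abs_of_pos hs, h.he.norm_eq_one, hne]

/-- Descending along plain children does not lose a weighted energy. -/
lemma descend (h : BiLip e F D) {lam : ℝ} (hlam : 0 ≤ lam) {t a b : ℕ} {z : H}
    (hS : Sheet e t a b z) : ∀ n, ∃ a' b', Sheet e (t + n) a' b' z ∧
      lam * hE (scaled e F t z) a b + vE (scaled e F t z) a b
        ≤ lam * hE (scaled e F (t + n) z) a' b' + vE (scaled e F (t + n) z) a' b' := by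
  have hD : 0 ≤ D := by linarith [h.hD]
  intro n
  induction n with
  | zero => exact ⟨a, b, hS, le_rfl⟩
  | succ n ih =>
    obtain ⟨a', b', hS', hle⟩ := ih
    set L := schL (t + n)
    have hlip := shifted_lip h hS'
    have s1 := sum_hE_ge _ L (schL_pos _) hD hlip
    have s2 := sum_hE_ge _ L (schL_pos _) hD hlip.swap
    rw [sum_comm] at s2
    obtain ⟨p1, p2⟩ := parent_hE h hS'
    let G := shifted e F (t + n) a' b' z
    have s3 : ∑ _p ∈ range L ×ˢ range L, (lam * hPar G L + vPar G L)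
        ≤ ∑ p ∈ range L ×ˢ range L, (lam * hE G p.1 p.2 + vE G p.1 p.2) := by
      rw [sum_product, sum_product]
      simp only [sum_add_distrib, ← mul_sum]
      simp only [sum_const, card_range, nsmul_eq_mul]
      change (L : ℝ) ^ 2 * vPar G L ≤ ∑ i ∈ range L, ∑ j ∈ range L, vE G i j at s2
      nlinarith [mul_le_mul_of_nonneg_left s1 hlam]
    obtain ⟨⟨i, j⟩, hij, hbest⟩ := Finset.exists_le_of_sum_le
      (Finset.nonempty_product.2 ⟨⟨0, Finset.mem_range.2 (schL_pos _)⟩,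
        ⟨0, Finset.mem_range.2 (schL_pos _)⟩⟩) s3
    rw [Finset.mem_product, Finset.mem_range, Finset.mem_range] at hij
    refine ⟨a' * L + i, b' * L + j, ?_, ?_⟩
    · simpa [vec, ← add_assoc] using sheet_child hS' hij.1 hij.2 none (fun _ hl => by simp at hl)
    · rw [← add_assoc, ← shifted_hE, ← shifted_vE]
      rw [p1, p2] at hle
      exact hle.trans hbest

/-- Horizontal and vertical energies of all squares. -/
def energies (e : ℕ → H) (F : H → E) : Set (ℝ × ℝ) :=
  {q | ∃ t a b z, Sheet e t a b z ∧ q = (hE (scaled e F t z) a b, vE (scaled e F t z) a b)}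

lemma packing [ProperSpace E] (D : ℝ) : ∃ M : ℕ, ∀ N, M < N → ∀ v : Fin N → E,
    (∀ i, ‖v i‖ ≤ D) → ∃ i j, i ≠ j ∧ ‖v i - v j‖ ≤ 1 / 4 := by
  classical
  obtain ⟨S, hS, hcov⟩ := Metric.totallyBounded_iff.1
    (isCompact_closedBall (0 : E) D).totallyBounded (1 / 8) (by norm_num)
  refine ⟨hS.toFinset.card, fun N hN v hv => ?_⟩
  have hm : ∀ i, ∃ c : ↥hS.toFinset, dist (v i) (c : E) < 1 / 8 := by
    intro i
    have := hcov (show v i ∈ Metric.closedBall (0 : E) D by simpa using hv i)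
    simp only [Set.mem_iUnion, Metric.mem_ball] at this
    obtain ⟨c, hc, hd⟩ := this
    exact ⟨⟨c, hS.mem_toFinset.2 hc⟩, hd⟩
  choose c hc using hm
  obtain ⟨i, j, hij, heq⟩ := Fintype.exists_ne_map_eq_of_card_lt c (by simpa using hN)
  refine ⟨i, j, hij, ?_⟩
  have h1 := hc i
  have h2 := hc j
  rw [← heq] at h2
  rw [← dist_eq_norm]
  linarith [dist_triangle_right (v i) (v j) (c i : E)]

lemma choose_params {D : ℝ} {N : ℕ} {ε₀ : ℝ} (hD : 1 ≤ D) (hε₀ : 0 < ε₀) :
    ∃ (W : ℕ) (η : ℝ), 0 < W ∧ 0 < η ∧ η ≤ ε₀ / 2 ∧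
      6 * (N : ℝ) ^ 3 * (W : ℝ) ^ 2 * η + 48 * D ^ 2 * (N : ℝ) ^ 2 / W
        + 6 * (N : ℝ) ^ 3 * D ^ 2 * η / (ε₀ / 2) + 12 * (N : ℝ) ^ 3 * D ^ 4 / (ε₀ / 2 * W)
        ≤ 2 * (1 / (32 * D) / 64) := by
  have hd : 0 < 1 / (32 * D) / 64 := by positivity
  set A := 48 * D ^ 2 * (N : ℝ) ^ 2 + 12 * (N : ℝ) ^ 3 * D ^ 4 / (ε₀ / 2) with hA
  obtain ⟨W, hW⟩ := exists_nat_gt (A / (1 / (32 * D) / 64))
  have hA0 : 0 ≤ A := by positivity
  have hW0 : (0 : ℝ) < W := lt_of_le_of_lt (by positivity) hW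
  set B := 6 * (N : ℝ) ^ 3 * (W : ℝ) ^ 2 + 6 * (N : ℝ) ^ 3 * D ^ 2 / (ε₀ / 2) with hB
  have hB0 : 0 ≤ B := by positivity
  refine ⟨W, min (ε₀ / 2) (1 / (32 * D) / 64 / (B + 1)), by exact_mod_cast hW0,
    lt_min (by linarith) (by positivity), min_le_left _ _, ?_⟩
  set η := min (ε₀ / 2) (1 / (32 * D) / 64 / (B + 1))
  have hη0 : 0 ≤ η := le_min (by linarith) (by positivity)
  have hη : η * (B + 1) ≤ 1 / (32 * D) / 64 := by
    rw [← le_div_iff₀ (by positivity)]; exact min_le_right _ _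
  have hAW : A / W ≤ 1 / (32 * D) / 64 := by
    rw [div_le_iff₀ hW0]
    rw [div_lt_iff₀ hd] at hW
    linarith
  have e1 : A / W = 48 * D ^ 2 * (N : ℝ) ^ 2 / W + 12 * (N : ℝ) ^ 3 * D ^ 4 / (ε₀ / 2 * W) := by
    rw [hA]; field_simp
  have e2 : η * B = 6 * (N : ℝ) ^ 3 * (W : ℝ) ^ 2 * η + 6 * (N : ℝ) ^ 3 * D ^ 2 * η / (ε₀ / 2) := by
    rw [hB]; ring
  nlinarith

/-- There is no normalised bi-Lipschitz map into a proper inner product space. -/
theorem not_biLip [ProperSpace E] : ¬ BiLip e F D := by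
  intro h
  have hD := h.hD
  have hD0 : 0 ≤ D := by linarith
  obtain ⟨M, hM⟩ := packing (E := E) D
  set N := M + 1 with hN
  have hN0 : (0 : ℝ) < (N : ℝ) := by positivity
  set c := 1 / (32 * D) / (384 * (N : ℝ) ^ 3) with hc
  have hc0 : 0 < c := by positivity
  set S := energies e F
  have hbd : ∀ q ∈ S, (0 ≤ q.1 ∧ q.1 ≤ D ^ 2) ∧ (0 ≤ q.2 ∧ q.2 ≤ D ^ 2) := by
    rintro q ⟨t, a, b, z, hS, rfl⟩
    exact ⟨⟨hE_nonneg _ _ _, hE_le_sq hD0 (scaled_lip h hS)⟩,
      ⟨hE_nonneg (fun x y => scaled e F t z y x) b a, vE_le_sq hD0 (scaled_lip h hS)⟩⟩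
  have hne : S.Nonempty := ⟨_, 0, 0, 0, 0, ⟨rfl, rfl, rfl⟩, rfl⟩
  set A := sSup (Prod.fst '' S) with hA
  have hA1 : BddAbove (Prod.fst '' S) := ⟨D ^ 2, by rintro _ ⟨q, hq, rfl⟩; exact (hbd q hq).1.2⟩
  have hleA : ∀ q ∈ S, q.1 ≤ A := fun q hq => le_csSup hA1 ⟨q, hq, rfl⟩
  let V : ℝ → Set ℝ := fun δ => Prod.snd '' {q ∈ S | A - δ ≤ q.1}
  have hV1 : ∀ δ, BddAbove (V δ) := fun δ => ⟨D ^ 2, by
    rintro _ ⟨q, hq, rfl⟩; exact (hbd q hq.1).2.2⟩
  have hV2 : ∀ δ, 0 < δ → (V δ).Nonempty := by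
    intro δ hδ
    obtain ⟨_, ⟨q, hq, rfl⟩, hq'⟩ :=
      exists_lt_of_lt_csSup (hne.image _) (show A - δ < A by linarith)
    exact ⟨q.2, q, ⟨hq, hq'.le⟩, rfl⟩
  let B : ℝ → ℝ := fun δ => sSup (V δ)
  set B₀ := sInf (B '' Set.Ioi 0)
  have hB1 : BddBelow (B '' Set.Ioi 0) := ⟨0, by
    rintro _ ⟨δ, hδ, rfl⟩
    obtain ⟨v, hv⟩ := hV2 δ hδ
    refine le_csSup_of_le (hV1 δ) hv ?_
    obtain ⟨q, hq, rfl⟩ := hv
    exact (hbd q hq.1).2.1⟩
  obtain ⟨_, ⟨ε₀, hε₀, rfl⟩, hBε⟩ := exists_lt_of_csInf_lt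
    (Set.nonempty_Ioi.image B) (show B₀ < B₀ + c / 4 by linarith)
  replace hε₀ : 0 < ε₀ := hε₀
  obtain ⟨W, η, hW, hη, hηε, hnum⟩ := choose_params (N := N) hD hε₀
  set lam := 2 * D ^ 2 / η with hlam
  have hlam0 : 0 < lam := by positivity
  set η₁ := min (η / 2) (min (c / (4 * lam)) (c / 4))
  have hη₁ : 0 < η₁ := lt_min (by linarith) (lt_min (by positivity) (by linarith))
  obtain ⟨_, ⟨q, ⟨hqS, hqA⟩, rfl⟩, hqB⟩ := exists_lt_of_lt_csSup (hV2 η₁ hη₁)
    (show B η₁ - η₁ < B η₁ by linarith)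
  have hB0le : B₀ ≤ B η₁ := csInf_le hB1 ⟨η₁, hη₁, rfl⟩
  obtain ⟨t, a, b, z, hS, rfl⟩ := hqS
  simp only at hqA hqB
  set T := Nat.pair (Nat.pair (N - 1) (W - 1)) t with hT
  obtain ⟨n, hn⟩ := Nat.exists_eq_add_of_le (show t ≤ T from Nat.right_le_pair _ _)
  obtain ⟨a', b', hS', hle⟩ := descend h hlam0.le hS n
  rw [← hn] at hS' hle
  have hTN : schN T = N := by simp [schN, hT, hN]
  have hTW : schW T = W := by simp [schW, hT]; omega
  set hh := hE (scaled e F T z) a' b'
  set vv := vE (scaled e F T z) a' b'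
  have hmem : (hh, vv) ∈ S := ⟨T, a', b', z, hS', rfl⟩
  have hhA : hh ≤ A := hleA _ hmem
  have hvD : vv ≤ D ^ 2 := (hbd _ hmem).2.2
  have hv1 : 0 ≤ vE (scaled e F t z) a b := hE_nonneg _ _ _
  have h1 := mul_le_mul_of_nonneg_left hqA hlam0.le
  have h2 := mul_le_mul_of_nonneg_left hhA hlam0.le
  have m1 : η₁ ≤ η / 2 := min_le_left _ _
  have m2 : η₁ ≤ c / (4 * lam) := (min_le_right _ _).trans (min_le_left _ _)
  have m3 : η₁ ≤ c / 4 := (min_le_right _ _).trans (min_le_right _ _)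
  have hlη : lam * η₁ ≤ c / 4 := by
    rw [le_div_iff₀ (by positivity)] at m2; linarith
  have hD2 : D ^ 2 = lam * (η / 2) := by rw [hlam]; field_simp
  have hgoodH : A - η ≤ hh := by
    by_contra hcon
    have := mul_lt_mul_of_pos_left (not_le.1 hcon) hlam0
    have := mul_le_mul_of_nonneg_left m1 hlam0.le
    nlinarith
  have hgoodV : B₀ - 3 * c / 4 ≤ vv := by linarith [mul_le_mul_of_nonneg_left hhA hlam0.le]
  obtain ⟨p1, p2⟩ := parent_hE h hS'
  have hg := gadgetData_sheet h hS'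
  set G := shifted e F T a' b' z
  set L := gL (schN T) (schW T) with hL
  have p1' : hh = hPar G L := p1
  have p2' : vv = vPar G L := p2
  have childmem : ∀ (o : Option ℕ) i j, i < L → j < L →
      (∀ l, o = some l → Avail (schN T) (schW T) l i j) →
      (hE (shifted e F T a' b' (z + vec e T o)) i j,
        vE (shifted e F T a' b' (z + vec e T o)) i j) ∈ S := by
    intro o i j hi hj ho
    rw [shifted_hE, shifted_vE]
    exact ⟨T + 1, _, _, _, sheet_child hS' hi hj o
      (fun l hl => (avail_shift T a' b' i j l).2 (ho l hl)), rfl⟩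
  have hA' : ∀ o i j, i < L → j < L → (∀ l, o = some l → Avail (schN T) (schW T) l i j) →
      hE (shifted e F T a' b' (z + vec e T o)) i j ≤ hPar G L + η := fun o i j hi hj ho => by
    have := hleA _ (childmem o i j hi hj ho)
    simp only at this
    linarith
  have hB' : ∀ o i j, i < L → j < L → (∀ l, o = some l → Avail (schN T) (schW T) l i j) →
      hPar G L - ε₀ / 2 ≤ hE (shifted e F T a' b' (z + vec e T o)) i j →
      vE (shifted e F T a' b' (z + vec e T o)) i j ≤ vPar G L + c := fun o i j hi hj ho hgood => by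
    have : vE (shifted e F T a' b' (z + vec e T o)) i j ≤ B ε₀ := by
      refine le_csSup (hV1 ε₀) ⟨_, ⟨childmem o i j hi hj ho, ?_⟩, rfl⟩
      show A - ε₀ ≤ hE (shifted e F T a' b' (z + vec e T o)) i j
      linarith
    linarith
  have hz : z + vec e T none = z := by simp [vec]
  have key := gadget hg (hM (schN T) (by rw [hTN]; omega)) hη.le (ε := ε₀ / 2) (c := c)
    (by linarith) hc0.le
    (fun i j hi hj => by have := hA' none i j hi hj (by simp); rwa [hz] at this)
    (fun l i j hi hj hl => hA' (some l) i j hi hj (fun l' hl' => Option.some.inj hl' ▸ hl))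
    (fun i j hi hj => by have := hB' none i j hi hj (by simp); rwa [hz] at this)
    (fun l i j hi hj hl => hB' (some l) i j hi hj (fun l' hl' => Option.some.inj hl' ▸ hl))
  rw [hTN, hTW] at key
  have ec : 6 * (N : ℝ) ^ 3 * c = 1 / (32 * D) / 64 := by rw [hc]; field_simp; ring
  have : (0 : ℝ) < 1 / (32 * D) := by positivity
  linarith

end Vale.Agent.P208
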