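import Vale.Agent.P208.Energy

/-!
Energy bounds for lifted strips.
-/

noncomputable section

open Finset

namespace Vale.Agent.P208

variable {E : Type*} [NormedAddCommGroup E] [InnerProductSpace ℝ E]

omit [InnerProductSpace ℝ E] in
lemma intervalIntegrable_sum {s : Finset ℕ} {F : ℕ → ℝ → ℝ} {a b : ℝ}
    (h : ∀ i ∈ s, IntervalIntegrable (F i) MeasureTheory.volume a b) :
    IntervalIntegrable (fun θ => ∑ i ∈ s, F i θ) MeasureTheory.volume a b := by
  simpa only [Finset.sum_fn] using IntervalIntegrable.sum _ h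

/-- The difference between a lifted strip and the base, in one step. -/
def stripTerm (g : ℝ → ℝ → E) (ψ : ℕ → ℝ → ℝ → E) (θ : ℝ) (a b : ℕ) : ℝ :=
  ‖(ψ b ((a : ℝ) + 1) (b + θ) - g ((a : ℝ) + 1) (b + θ)) - (ψ b a (b + θ) - g a (b + θ))‖ ^ 2

/-- Hypotheses on a family of horizontal lifted strips over the square of side `L`. -/
structure StripData (D : ℝ) (L : ℕ) (g : ℝ → ℝ → E) (ψ : ℕ → ℝ → ℝ → E) : Prop where
  hD : 0 ≤ D
  lipg : LipBox D g 0 0 L
  lipψ : ∀ a b, a < L → b < L → LipBox D (ψ b) a b 1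
  near : ∀ a b, a < L → b < L → ∀ x ∈ Set.Icc (a : ℝ) (a + 1), ∀ y ∈ Set.Icc (b : ℝ) (b + 1),
    ‖ψ b x y - g x y‖ ≤ D

variable {D : ℝ} {L : ℕ} {g : ℝ → ℝ → E} {ψ : ℕ → ℝ → ℝ → E}

omit [InnerProductSpace ℝ E] in
lemma cast_succ_le {a L : ℕ} (h : a < L) : (a : ℝ) + 1 ≤ L := by exact_mod_cast h

omit [InnerProductSpace ℝ E] in
lemma StripData.cg (h : StripData D L g ψ) {a b : ℕ} (ha : a ≤ L) (hb : b < L) :
    ContinuousOn (fun θ => g a (b + θ)) (Set.Icc 0 1) :=
  h.lipg.continuousOn_line h.hD ⟨by positivity, by simpa using ha⟩ (by positivity)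
    (by simpa using cast_succ_le hb)

omit [InnerProductSpace ℝ E] in
lemma StripData.cg' (h : StripData D L g ψ) {a b : ℕ} (ha : a < L) (hb : b < L) :
    ContinuousOn (fun θ => g ((a : ℝ) + 1) (b + θ)) (Set.Icc 0 1) := by
  have := h.cg (a := a + 1) ha hb
  rwa [Nat.cast_add, Nat.cast_one] at this

omit [InnerProductSpace ℝ E] in
lemma StripData.cψ (h : StripData D L g ψ) {a b : ℕ} (ha : a < L) (hb : b < L) :
    ContinuousOn (fun θ => ψ b a (b + θ)) (Set.Icc 0 1) :=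
  (h.lipψ a b ha hb).continuousOn_line h.hD ⟨le_rfl, by linarith⟩ le_rfl le_rfl

omit [InnerProductSpace ℝ E] in
lemma StripData.cψ' (h : StripData D L g ψ) {a b : ℕ} (ha : a < L) (hb : b < L) :
    ContinuousOn (fun θ => ψ b ((a : ℝ) + 1) (b + θ)) (Set.Icc 0 1) :=
  (h.lipψ a b ha hb).continuousOn_line h.hD ⟨by linarith, le_rfl⟩ le_rfl le_rfl

omit [InnerProductSpace ℝ E] in
lemma StripData.iψ (h : StripData D L g ψ) {a b : ℕ} (ha : a < L) (hb : b < L) :
    IntervalIntegrable (fun θ => ‖ψ b ((a : ℝ) + 1) (b + θ) - ψ b a (b + θ)‖ ^ 2)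
      MeasureTheory.volume 0 1 :=
  intervalIntegrable_sq_sub (h.cψ' ha hb) (h.cψ ha hb)

omit [InnerProductSpace ℝ E] in
lemma StripData.ig (h : StripData D L g ψ) {a b : ℕ} (ha : a < L) (hb : b < L) :
    IntervalIntegrable (fun θ => ‖g ((a : ℝ) + 1) (b + θ) - g a (b + θ)‖ ^ 2)
      MeasureTheory.volume 0 1 :=
  intervalIntegrable_sq_sub (h.cg' ha hb) (h.cg ha.le hb)

omit [InnerProductSpace ℝ E] in
lemma StripData.ic (h : StripData D L g ψ) {b : ℕ} (hb : b < L) :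
    IntervalIntegrable (fun θ => ‖g L (b + θ) - g 0 (b + θ)‖ ^ 2)
      MeasureTheory.volume 0 1 := by
  have h0 := h.cg (a := 0) (Nat.zero_le _) hb
  rw [Nat.cast_zero] at h0
  exact intervalIntegrable_sq_sub (h.cg le_rfl hb) h0

omit [InnerProductSpace ℝ E] in
lemma StripData.iT (h : StripData D L g ψ) {a b : ℕ} (ha : a < L) (hb : b < L) :
    IntervalIntegrable (fun θ => stripTerm g ψ θ a b) MeasureTheory.volume 0 1 :=
  intervalIntegrable_sq_sub ((h.cψ' ha hb).sub (h.cg' ha hb)) ((h.cψ ha hb).sub (h.cg ha.le hb))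

omit [InnerProductSpace ℝ E] in
lemma integral_chord (h : StripData D L g ψ) (hL : 0 < L) :
    ∫ θ in (0 : ℝ)..1, ∑ b ∈ range L, ‖g L (b + θ) - g 0 (b + θ)‖ ^ 2 / L
      = (L : ℝ) ^ 2 * hPar g L := by
  have hLR : (0 : ℝ) < L := by exact_mod_cast hL
  simp only [hPar, ← sum_div, intervalIntegral.integral_div]
  field_simp

omit [InnerProductSpace ℝ E] in
lemma StripData.chord_le (h : StripData D L g ψ) {b : ℕ} (hb : b < L) {θ : ℝ}
    (hθ : θ ∈ Set.Icc (0 : ℝ) 1) {x x' : ℕ} (hx : x ≤ x') (hx' : x' ≤ L) :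
    ‖g x' (b + θ) - g x (b + θ)‖ ≤ D * ((x' : ℝ) - x) := by
  have hy : (b : ℝ) + θ ∈ Set.Icc (0 : ℝ) (0 + L) :=
    ⟨by linarith [hθ.1, Nat.cast_nonneg (α := ℝ) b],
      by linarith [hθ.2, cast_succ_le hb]⟩
  have := h.lipg x' (b + θ) x (b + θ) ⟨by positivity, by simpa using hx'⟩ hy
    ⟨by positivity, by simpa using hx.trans hx'⟩ hy
  rwa [sub_self, abs_zero, add_zero, abs_of_nonneg (by simpa using hx)] at this

omit [InnerProductSpace ℝ E] in
lemma StripData.near' (h : StripData D L g ψ) {a b : ℕ} (ha : a ≤ L) (hb : b < L) {θ : ℝ}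
    (hθ : θ ∈ Set.Icc (0 : ℝ) 1) : ‖ψ b a (b + θ) - g a (b + θ)‖ ≤ D := by
  have hy : (b : ℝ) + θ ∈ Set.Icc (b : ℝ) (b + 1) := ⟨by linarith [hθ.1], by linarith [hθ.2]⟩
  rcases lt_or_eq_of_le ha with h1 | h1
  · exact h.near a b h1 hb _ ⟨le_rfl, by linarith⟩ _ hy
  · subst h1
    obtain ⟨a', rfl⟩ : ∃ a', a = a' + 1 := ⟨a - 1, by omega⟩
    exact h.near a' b (Nat.lt_succ_self _) hb _ ⟨by simp, by simp⟩ _ hy

/-- Total difference energy between lifted strips and the base. -/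
lemma strip_bound (h : StripData D L g ψ) (hL : 0 < L) :
    ∫ θ in (0 : ℝ)..1, ∑ b ∈ range L, ∑ a ∈ range L, stripTerm g ψ θ a b
      ≤ 3 * (∑ b ∈ range L, ∑ a ∈ range L, hE (ψ b) a b
          + ∑ b ∈ range L, ∑ a ∈ range L, hE g a b - 2 * ((L : ℝ) ^ 2 * hPar g L))
        + 24 * D ^ 2 * L := by
  have iT := intervalIntegrable_sum (s := range L) (fun b hb =>
    intervalIntegrable_sum (s := range L) (F := fun a θ => stripTerm g ψ θ a b) (fun a ha =>
      h.iT (Finset.mem_range.1 ha) (Finset.mem_range.1 hb)))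
  have iψ : ∀ b ∈ range L, IntervalIntegrable (fun θ => ∑ a ∈ range L,
      ‖ψ b ((a : ℝ) + 1) (b + θ) - ψ b a (b + θ)‖ ^ 2) MeasureTheory.volume 0 1 := fun b hb =>
    intervalIntegrable_sum (fun a ha => h.iψ (Finset.mem_range.1 ha) (Finset.mem_range.1 hb))
  have ig : ∀ b ∈ range L, IntervalIntegrable (fun θ => ∑ a ∈ range L,
      ‖g ((a : ℝ) + 1) (b + θ) - g a (b + θ)‖ ^ 2) MeasureTheory.volume 0 1 := fun b hb =>
    intervalIntegrable_sum (fun a ha => h.ig (Finset.mem_range.1 ha) (Finset.mem_range.1 hb))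
  have ic := intervalIntegrable_sum (s := range L)
    (F := fun b θ => ‖g L (b + θ) - g 0 (b + θ)‖ ^ 2 / L)
    (fun b hb => (h.ic (Finset.mem_range.1 hb)).div_const _)
  have e1 : ∑ b ∈ range L, ∑ a ∈ range L, hE (ψ b) a b = ∫ θ in (0 : ℝ)..1, ∑ b ∈ range L,
      ∑ a ∈ range L, ‖ψ b ((a : ℝ) + 1) (b + θ) - ψ b a (b + θ)‖ ^ 2 := by
    rw [intervalIntegral.integral_finsetSum iψ]
    exact sum_congr rfl fun b hb => (intervalIntegral.integral_finsetSum
      (fun a ha => h.iψ (Finset.mem_range.1 ha) (Finset.mem_range.1 hb))).symm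
  have e2 : ∑ b ∈ range L, ∑ a ∈ range L, hE g a b = ∫ θ in (0 : ℝ)..1, ∑ b ∈ range L,
      ∑ a ∈ range L, ‖g ((a : ℝ) + 1) (b + θ) - g a (b + θ)‖ ^ 2 := by
    rw [intervalIntegral.integral_finsetSum ig]
    exact sum_congr rfl fun b hb => (intervalIntegral.integral_finsetSum
      (fun a ha => h.ig (Finset.mem_range.1 ha) (Finset.mem_range.1 hb))).symm
  have e3 : (24 : ℝ) * D ^ 2 * L = ∫ _θ in (0 : ℝ)..1, 24 * D ^ 2 * L := by simp
  rw [e1, e2, e3, ← integral_chord h hL, ← intervalIntegral.integral_add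
    (intervalIntegrable_sum iψ) (intervalIntegrable_sum ig),
    ← intervalIntegral.integral_const_mul 2, ← intervalIntegral.integral_sub
    ((intervalIntegrable_sum iψ).add (intervalIntegrable_sum ig)) (ic.const_mul 2),
    ← intervalIntegral.integral_const_mul 3, ← intervalIntegral.integral_add
    ((((intervalIntegrable_sum iψ).add (intervalIntegrable_sum ig)).sub (ic.const_mul 2)).const_mul 3)
    intervalIntegrable_const]
  refine intervalIntegral.integral_mono_on zero_le_one iT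
    (((((intervalIntegrable_sum iψ).add (intervalIntegrable_sum ig)).sub
      (ic.const_mul 2)).const_mul 3).add intervalIntegrable_const) (fun θ hθ => ?_)
  have : (24 : ℝ) * D ^ 2 * L = ∑ _b ∈ range L, 24 * D ^ 2 := by simp; ring
  rw [this, ← sum_add_distrib, mul_sum _ _ (2 : ℝ), ← sum_sub_distrib, mul_sum,
    ← sum_add_distrib]
  refine sum_le_sum (fun b hb => ?_)
  have hb' := Finset.mem_range.1 hb
  have n0 := h.near' (a := 0) (Nat.zero_le _) hb' hθ
  have n1 := h.near' (a := L) le_rfl hb' hθ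
  have hc := h.chord_le hb' hθ (x := 0) (Nat.zero_le L) le_rfl
  rw [Nat.cast_zero, sub_zero] at hc
  rw [Nat.cast_zero] at n0
  have := diff_energy_le (fun a : ℕ => ψ b a (b + θ)) (fun a : ℕ => g a (b + θ)) L hL D h.hD
    (by simpa using n0) n1 (by simpa using hc)
  simpa [stripTerm] using this

end Vale.Agent.P208
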